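import Mathlib

/-! P016 Split: splitting of primes in `L = F(ω)` (TASK, Mathlib only).
PLAN.  `w` is integral (`X² + X + 1`), `ω : 𝓞 L`.  `L / F` is Galois (`Algebra.IsQuadraticExtension`), some `σ` moves `w`
(`IsGalois.mem_range_algebraMap_iff_fixed` / `mem_bot_iff_fixed`), so `σ w = w²`.  For `Q` over `P`: `absNorm Q = absNorm P ^ f`
(`Ideal.absNorm_eq_pow_inertiaDeg`-type lemma, or `Module.natCard_eq_pow_finrank` for the residue fields), `∑ e f = 2`
(`Ideal.sum_ramification_inertia`), `e, f ≥ 1`, at least one prime lies over `P`.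
If `3 ∣ N P` every factor is `1`.  Otherwise `3 ∉ Q`, the image of `ω` in the field `𝓞 L ⧸ Q` has order `3` (`ω ≡ 1` gives `3 ∈ Q`), so
`N Q ≡ 1 mod 3` (`orderOf_dvd_card_sub_one`, `FiniteField.pow_card_sub_one_eq_one`).  If `N P ≡ 2 mod 3`: `f ≠ 1` for every `Q`, so there is
one `Q` with `f = 2`.  If `N P ≡ 1 mod 3`: there is `u ∈ 𝓞 F` of order `3` mod `P` (`exists_prime_orderOf_dvd_card` in the units),
`u² + u + 1 ∈ P`, `(ω - u)(ω - u²) ∈ Q`, so `ω ≡ t mod Q` with `t ∈ 𝓞 F`; if `σ • Q = Q` then `ω² ≡ t ≡ ω`, `ω ≡ 1`: impossible.  So `Q ≠ σ • Q`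
are two primes over `P`, hence all, with `f = 1`.  `(N ^ 2 : ℂ) ^ (-s) = (N ^ (-s)) ^ 2` (`Complex.natCast_mul_natCast_cpow`). -/

namespace Vale.Agent.P016

open scoped NumberField

theorem split_leg (n : ℕ) :
    (n % 3 = 0 → legendreSym 3 n = 0) ∧ (n % 3 = 1 → legendreSym 3 n = 1) ∧
      (n % 3 = 2 → legendreSym 3 n = -1) := by
  refine ⟨fun h => ?_, fun h => ?_, fun h => ?_⟩
  · rw [legendreSym.mod, show (n : ℤ) % (3 : ℕ) = 0 by omega]
    norm_num
  · rw [legendreSym.mod, show (n : ℤ) % (3 : ℕ) = 1 by omega]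
    norm_num
  · rw [legendreSym.mod, show (n : ℤ) % (3 : ℕ) = 2 by omega]
    norm_num

theorem split_field_mod {k : Type} [Field k] [Finite k] {x : k} (hx : x ^ 2 + x + 1 = 0)
    (h1 : x ≠ 1) : Nat.card k % 3 = 1 := by
  have := Fintype.ofFinite k
  have h3 : x ^ 3 = 1 := by linear_combination (x - 1) * hx
  have h4 := FiniteField.pow_card x
  rw [← Nat.card_eq_fintype_card, ← Nat.div_add_mod (Nat.card k) 3, pow_add, pow_mul, h3, one_pow,
    one_mul] at h4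
  obtain h | h | h : Nat.card k % 3 = 0 ∨ Nat.card k % 3 = 1 ∨ Nat.card k % 3 = 2 := by omega
  · rw [h, pow_zero] at h4
    exact absurd h4.symm h1
  · exact h
  · rw [h] at h4
    exact absurd (by linear_combination h3 - (x + 1) * h4) h1

theorem split_field_root {k : Type} [Field k] [Finite k] (h : Nat.card k % 3 = 1) :
    ∃ x : k, x ^ 2 + x + 1 = 0 := by
  have : Fact (Nat.Prime 3) := ⟨Nat.prime_three⟩
  obtain ⟨x, hx⟩ := exists_prime_orderOf_dvd_card' (G := kˣ) 3 (by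
    rw [Nat.card_units]
    omega)
  have h3 : (x : k) ^ 3 = 1 := by
    rw [← Units.val_pow_eq_pow_val, ← hx, pow_orderOf_eq_one, Units.val_one]
  have h1 : (x : k) - 1 ≠ 0 := fun h0 => by
    have : x = 1 := Units.ext (sub_eq_zero.1 h0)
    rw [this, orderOf_one] at hx
    omega
  exact ⟨x, mul_left_cancel₀ h1 (by linear_combination h3)⟩

theorem split_mod {L : Type} [Field L] [NumberField L] {ω : 𝓞 L} (hω : ω ^ 2 + ω + 1 = 0)
    {Q : Ideal (𝓞 L)} (hQ : Q.IsPrime) (h0 : Q ≠ ⊥) (h1 : ω - 1 ∉ Q) :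
    Ideal.absNorm Q % 3 = 1 := by
  have := hQ.isMaximal h0
  have := Ideal.finiteQuotientOfFreeOfNeBot Q h0
  let _ := Ideal.Quotient.field Q
  refine split_field_mod (k := 𝓞 L ⧸ Q) (x := Ideal.Quotient.mk Q ω) ?_ fun h => h1 ?_
  · have := congrArg (Ideal.Quotient.mk Q) hω
    simpa using this
  · rw [← Ideal.Quotient.eq_zero_iff_mem, map_sub, h, map_one, sub_self]

theorem split_root {F : Type} [Field F] [NumberField F] {P : Ideal (𝓞 F)} (hP : P.IsPrime)
    (h0 : P ≠ ⊥) (h : Ideal.absNorm P % 3 = 1) : ∃ u : 𝓞 F, u ^ 2 + u + 1 ∈ P := by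
  have := hP.isMaximal h0
  have := Ideal.finiteQuotientOfFreeOfNeBot P h0
  let _ := Ideal.Quotient.field P
  obtain ⟨x, hx⟩ := split_field_root (k := 𝓞 F ⧸ P) h
  obtain ⟨u, rfl⟩ := Ideal.Quotient.mk_surjective x
  refine ⟨u, Ideal.Quotient.eq_zero_iff_mem.1 ?_⟩
  simpa using hx

theorem split_conj {F L : Type} [Field F] [NumberField F] [Field L] [NumberField L] [Algebra F L]
    (h2 : Module.finrank F L = 2) {w : L} (hw : w ^ 2 + w + 1 = 0)
    (hF : ∀ x : F, x ^ 2 + x + 1 ≠ 0) :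
    ∃ (ω : 𝓞 L) (τ : 𝓞 L →ₐ[𝓞 F] 𝓞 L), ω ^ 2 + ω + 1 = 0 ∧ τ ω = ω ^ 2 := by
  have hq : Algebra.IsQuadraticExtension F L := { finrank_eq_two' := h2 }
  have hi : IsIntegral ℤ w := by
    refine IsIntegral.of_pow (n := 3) (by norm_num) ?_
    rw [show w ^ 3 = 1 by linear_combination (w - 1) * hw]
    exact isIntegral_one
  have hn : w ∉ Set.range (algebraMap F L) := by
    rintro ⟨x, rfl⟩
    refine hF x ((algebraMap F L).injective ?_)
    simpa using hw
  rw [IsGalois.mem_range_algebraMap_iff_fixed, not_forall] at hn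
  obtain ⟨σ, hσ⟩ := hn
  have h3 : σ w ^ 2 + σ w + 1 = 0 := by
    have := congrArg σ hw
    simpa using this
  have h4 : σ w = w ^ 2 := by
    refine mul_left_cancel₀ (sub_ne_zero.2 hσ) ?_
    linear_combination h3 + (-(σ w) + w - 1) * hw
  refine ⟨⟨w, hi⟩, NumberField.RingOfIntegers.mapAlgHom σ, ?_, ?_⟩
  · exact NumberField.RingOfIntegers.ext hw
  · exact NumberField.RingOfIntegers.ext h4

theorem local_id {F L : Type} [Field F] [NumberField F] [Field L] [NumberField L] [Algebra F L]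
    (h2 : Module.finrank F L = 2) {w : L} (hw : w ^ 2 + w + 1 = 0)
    (hF : ∀ x : F, x ^ 2 + x + 1 ≠ 0) {P : Ideal (𝓞 F)} (hP : Prime P) (s : ℂ)
    {T : Finset (Ideal (𝓞 L))} (hT : ∀ Q, Q ∈ T ↔ Q.IsPrime ∧ Q.LiesOver P) :
    ∏ Q ∈ T, (1 - (legendreSym 3 (Ideal.absNorm Q) : ℂ) ^ 2 * (Ideal.absNorm Q : ℂ) ^ (-s)) =
      (1 - (legendreSym 3 (Ideal.absNorm P) : ℂ) ^ 2 * (Ideal.absNorm P : ℂ) ^ (-s)) *
        (1 - (legendreSym 3 (Ideal.absNorm P) : ℂ) * (Ideal.absNorm P : ℂ) ^ (-s)) := by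
  classical
  have h0 : P ≠ ⊥ := hP.ne_zero
  have hPp := (Ideal.prime_iff_isPrime h0).1 hP
  have hmax := hPp.isMaximal h0
  obtain ⟨ω, τ, hω, hτ⟩ := split_conj h2 hw hF
  have hT' : T = IsDedekindDomain.primesOverFinset P (𝓞 L) := by
    ext Q
    rw [hT, IsDedekindDomain.mem_primesOverFinset_iff h0]
    rfl
  have hsum := Ideal.sum_ramification_inertia (𝓞 L) F L h0
  rw [← hT', h2] at hsum
  have hN : ∀ Q ∈ T, Ideal.absNorm Q = Ideal.absNorm P ^ P.inertiaDeg' Q := fun Q hQ => by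
    have := ((hT Q).1 hQ).2
    exact Ideal.absNorm_eq_pow_inertiaDeg'_of_liesOver Q P hPp h0
  have hf : ∀ Q ∈ T, 1 ≤ P.inertiaDeg' Q := fun Q hQ => by
    have := ((hT Q).1 hQ).2
    exact Ideal.inertiaDeg'_pos P Q
  have hg : ∀ Q ∈ T, P.inertiaDeg' Q ≤ P.ramificationIdx' Q * P.inertiaDeg' Q := fun Q hQ => by
    have := ((hT Q).1 hQ).1
    have := ((hT Q).1 hQ).2
    exact Nat.le_mul_of_pos_left _ (Nat.pos_of_ne_zero
      (Ideal.IsDedekindDomain.ramificationIdx'_ne_zero_of_liesOver Q h0))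
  have hmem : ∀ Q ∈ T, ∀ x : 𝓞 F, algebraMap (𝓞 F) (𝓞 L) x ∈ Q ↔ x ∈ P := fun Q hQ x => by
    have := ((hT Q).1 hQ).2
    exact (Ideal.mem_of_liesOver Q P x).symm
  have hne : ∀ Q ∈ T, Q ≠ ⊥ := fun Q hQ => by
    have := ((hT Q).1 hQ).2
    exact Ideal.ne_bot_of_liesOver_of_ne_bot h0 Q
  have hone : Ideal.absNorm P % 3 ≠ 0 → ∀ Q ∈ T, ω - 1 ∉ Q := fun h3 Q hQ h1 => by
    have a1 : (3 : 𝓞 L) ∈ Q := by
      have e : (3 : 𝓞 L) = -(ω + 2) * (ω - 1) := by linear_combination hω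
      rw [e]
      exact Q.mul_mem_left _ h1
    have a2 : ((3 : ℕ) : 𝓞 F) ∈ P := (hmem Q hQ _).1 (by
      rw [map_natCast]
      exact_mod_cast a1)
    have a3 := Ideal.absNorm_mem P
    have a4 : Nat.Coprime 3 (Ideal.absNorm P) :=
      (Nat.Prime.coprime_iff_not_dvd Nat.prime_three).2 (by omega)
    obtain ⟨a, b, hab⟩ := (Nat.Coprime.cast (R := 𝓞 F) a4)
    exact hPp.ne_top ((Ideal.eq_top_iff_one P).2
      (hab ▸ P.add_mem (P.mul_mem_left _ a2) (P.mul_mem_left _ a3)))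
  have hmod : Ideal.absNorm P % 3 ≠ 0 → ∀ Q ∈ T, Ideal.absNorm Q % 3 = 1 := fun h3 Q hQ =>
    split_mod hω ((hT Q).1 hQ).1 (hne Q hQ) (hone h3 Q hQ)
  have hTne : T.Nonempty := Finset.nonempty_of_sum_ne_zero (by rw [hsum]; norm_num)
  obtain h | h | h : Ideal.absNorm P % 3 = 0 ∨ Ideal.absNorm P % 3 = 1 ∨
      Ideal.absNorm P % 3 = 2 := by omega
  · rw [(split_leg _).1 h, Finset.prod_eq_one fun Q hQ => ?_]
    · simp
    · have h3 : 3 ∣ Ideal.absNorm Q := by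
        rw [hN Q hQ]
        exact (Nat.dvd_of_mod_eq_zero h).trans (dvd_pow_self _ (by have := hf Q hQ; omega))
      rw [(split_leg _).1 (by omega)]
      simp
  · obtain ⟨Q, hQ⟩ := hTne
    obtain ⟨u, hu⟩ := split_root hPp h0 h
    obtain ⟨t, ht⟩ : ∃ t : 𝓞 F, ω - algebraMap (𝓞 F) (𝓞 L) t ∈ Q := by
      have a1 := (hmem Q hQ _).2 hu
      have a2 : (ω - algebraMap (𝓞 F) (𝓞 L) u) * (ω - algebraMap (𝓞 F) (𝓞 L) (-1 - u)) ∈ Q := by
        have e : (ω - algebraMap (𝓞 F) (𝓞 L) u) * (ω - algebraMap (𝓞 F) (𝓞 L) (-1 - u)) =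
            -algebraMap (𝓞 F) (𝓞 L) (u ^ 2 + u + 1) := by
          simp only [map_sub, map_add, map_pow, map_neg, map_one]
          linear_combination hω
        rw [e]
        exact Q.neg_mem a1
      rcases ((hT Q).1 hQ).1.mem_or_mem a2 with a3 | a3
      · exact ⟨_, a3⟩
      · exact ⟨_, a3⟩
    have hQp := ((hT Q).1 hQ).1
    have hQ' : Q.comap τ ∈ T := by
      refine (hT _).2 ⟨Ideal.comap_isPrime τ Q, ⟨Ideal.ext fun x => ?_⟩⟩
      rw [← hmem Q hQ, Ideal.under_def, Ideal.mem_comap, Ideal.mem_comap, AlgHom.commutes]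
    have hQQ : Q.comap τ ≠ Q := fun he => by
      have a1 : τ (ω - algebraMap (𝓞 F) (𝓞 L) t) ∈ Q := by
        rw [← Ideal.mem_comap, he]
        exact ht
      rw [map_sub, hτ, AlgHom.commutes] at a1
      refine hone (by omega) Q hQ ?_
      have e : ω - 1 = ω ^ 2 * ((ω ^ 2 - algebraMap (𝓞 F) (𝓞 L) t) -
          (ω - algebraMap (𝓞 F) (𝓞 L) t)) := by
        linear_combination (-(ω - 1) ^ 2) * hω
      rw [e]
      exact Q.mul_mem_left _ (Q.sub_mem a1 ht)
    have hc2 : 2 ≤ T.card := Finset.one_lt_card.2 ⟨_, hQ', _, hQ, hQQ⟩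
    have hle : ∀ Q ∈ T, 1 ≤ P.ramificationIdx' Q * P.inertiaDeg' Q := fun Q hQ =>
      (hf Q hQ).trans (hg Q hQ)
    have hc3 := Finset.card_nsmul_le_sum T _ 1 hle
    rw [hsum, smul_eq_mul, mul_one] at hc3
    have hall := (Finset.sum_eq_sum_iff_of_le hle).1 (by
      rw [hsum, Finset.sum_const, smul_eq_mul, mul_one]
      omega)
    rw [Finset.prod_congr rfl (g := fun _ => 1 - (Ideal.absNorm P : ℂ) ^ (-s)) fun Q hQ => ?_,
      Finset.prod_const, show T.card = 2 by omega, (split_leg _).2.1 h]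
    · push_cast
      ring
    · have a1 : P.inertiaDeg' Q = 1 := le_antisymm ((hg Q hQ).trans (hall Q hQ).ge) (hf Q hQ)
      rw [hN Q hQ, a1, pow_one, (split_leg _).2.1 h]
      simp
  · have hf2 : ∀ Q ∈ T, 2 ≤ P.inertiaDeg' Q := fun Q hQ => by
      by_contra hc
      have a1 : P.inertiaDeg' Q = 1 := by have := hf Q hQ; omega
      have a2 := hmod (by omega) Q hQ
      rw [hN Q hQ, a1, pow_one] at a2
      omega
    have hc3 := Finset.card_nsmul_le_sum T _ 2 fun Q hQ => (hf2 Q hQ).trans (hg Q hQ)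
    rw [hsum, smul_eq_mul] at hc3
    have hc1 : T.card = 1 := by have := hTne.card_pos; omega
    obtain ⟨Q, rfl⟩ := Finset.card_eq_one.1 hc1
    have hQ := Finset.mem_singleton_self Q
    rw [Finset.sum_singleton] at hsum
    have a1 : P.inertiaDeg' Q = 2 := le_antisymm ((hg Q hQ).trans hsum.le) (hf2 Q hQ)
    rw [Finset.prod_singleton, (split_leg _).2.1 (hmod (by omega) Q hQ), (split_leg _).2.2 h,
      hN Q hQ, a1, sq (Ideal.absNorm P), Nat.cast_mul, Complex.natCast_mul_natCast_cpow]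
    push_cast
    ring

/-- a prime lies over a prime of smaller norm -/
theorem absNorm_under_le {F L : Type} [Field F] [NumberField F] [Field L] [NumberField L]
    [Algebra F L] {Q : Ideal (𝓞 L)} (hQ : Prime Q) :
    Prime (Q.under (𝓞 F)) ∧ Ideal.absNorm (Q.under (𝓞 F)) ≤ Ideal.absNorm Q := by
  have h0 : Q ≠ ⊥ := hQ.ne_zero
  have hQp := (Ideal.prime_iff_isPrime h0).1 hQ
  have h1 : Q.under (𝓞 F) ≠ ⊥ := fun h => h0 (Ideal.eq_bot_of_comap_eq_bot h)
  have hPp : (Q.under (𝓞 F)).IsPrime := inferInstance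
  refine ⟨(Ideal.prime_iff_isPrime h1).2 hPp, ?_⟩
  rw [Ideal.absNorm_eq_pow_inertiaDeg'_of_liesOver Q _ hPp h1]
  exact Nat.le_self_pow (Ideal.inertiaDeg'_pos' _ Q).ne' _

theorem exists_quad (F : Type) [Field F] [NumberField F] (hF : ∀ x : F, x ^ 2 + x + 1 ≠ 0) :
    ∃ (L : Type) (_ : Field L) (_ : NumberField L) (_ : Algebra F L),
      Module.finrank F L = 2 ∧ ∃ w : L, w ^ 2 + w + 1 = 0 := by
  obtain ⟨p, hp⟩ : ∃ p : Polynomial F, p = Polynomial.X ^ 2 + Polynomial.X + 1 := ⟨_, rfl⟩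
  have hd : p.natDegree = 2 := by
    rw [hp]
    compute_degree!
  have h0 : p ≠ 0 := fun h => by
    rw [h] at hd
    simp at hd
  have hi : Irreducible p := by
    rw [Polynomial.irreducible_iff_roots_eq_zero_of_degree_le_three hd.ge (by omega),
      Multiset.eq_zero_iff_forall_notMem]
    intro x hx
    have := Polynomial.isRoot_of_mem_roots hx
    rw [hp] at this
    exact hF x (by simpa using this)
  have : Fact (Irreducible p) := ⟨hi⟩
  have : FiniteDimensional F (AdjoinRoot p) := (AdjoinRoot.powerBasis h0).finite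
  refine ⟨AdjoinRoot p, inferInstance, NumberField.of_module_finite F _, inferInstance, ?_,
    AdjoinRoot.root p, ?_⟩
  · rw [(AdjoinRoot.powerBasis h0).finrank, AdjoinRoot.powerBasis_dim, hd]
  · have := AdjoinRoot.aeval_eq (f := p) p
    rw [AdjoinRoot.mk_self] at this
    rw [← this]
    conv_rhs => enter [2]; rw [hp]
    simp

end Vale.Agent.P016
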