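import Vale.Agent.P016.Defs
import Vale.Agent.P005.Red.Vaughan

/-! P016 Approx: the identity of Vaughan and the type II bound (TASK; compare `P005/Red/Approx.lean`).
PLAN.  Insert `vaughan U n`.  Small part: `n ≤ U`, `Λ n ≤ log N`, `|nu| ≤ 1`, `|wg| ≤ log N`.  Type II part: `sum_dconv`, `muH U r = 0` for
`r ≤ U`; split according to `b' = r % (c M) ∈ range (c M)` (`Finset.sum_fiberwise_of_maps_to` or `∑ b', ite`); for fixed `b'` apply `TIIz`
with `β s = if s ≤ N ∧ b' * s ≡ c b + 1 [MOD c M] then be U s / log N else 0` (`be_le`, `be_nonneg`, `be_eq_zero`; `s ≤ N^δ ≤ U`) and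
`F x = if c ∣ x ∧ x ≤ N then G (x / c) / log N else 0`; `c d ∣ y ↔ d ∣ y ∧ c ∣ y / d`, `y / d / c = y / (c d)`. -/

namespace Vale.Agent.P016

open Finset Filter Vale.Agent.P005

theorem approx {N A U z c b M j : ℕ} {δ : ℝ} {P : Fin j → Finset ℕ} (hN : 3 ≤ N) (hc : 0 < c)
    (hM : 0 < M) (hP : ∀ i, ∀ p ∈ P i, 0 < p) (hII : ∀ b', TIIz N A δ P z (c * M) b')
    (hU : (N : ℝ) ^ δ ≤ U) {G : ℕ → ℝ} (hG : ∀ m, m ≤ N → |G m| ≤ Real.log N) :
    |SS N z c b M P G - T1 N U z c b M P G| ≤
      #(Fintype.piFinset P) * U * Real.log N ^ 2 +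
        c * M * Real.log N ^ 2 * (N / Real.log N ^ A) := by
  classical
  have hL : 0 < Real.log N := Real.log_pos (by exact_mod_cast (by omega : 1 < N))
  have hnu : ∀ n, |nu z n| ≤ 1 := fun n => by unfold nu; split_ifs <;> simp
  have hwg : ∀ d n, n ≤ N → |wg c b M d G n| ≤ Real.log N := fun d n hn => by
    unfold wg
    split_ifs
    · exact hG _ ((Nat.div_le_self _ _).trans (by omega))
    · simpa using hL.le
  have h1 : |∑ π ∈ Fintype.piFinset P, ∑ n ∈ Icc 1 N, (if n ≤ U then ArithmeticFunction.vonMangoldt n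
      else 0) * (nu z n * wg c b M (∏ i, π i) G n)| ≤
      #(Fintype.piFinset P) * U * Real.log N ^ 2 := by
    refine (abs_sum_le_sum_abs _ _).trans ((sum_le_card_nsmul _ _ (U * Real.log N ^ 2)
      fun π _ => ?_).trans (le_of_eq (by rw [nsmul_eq_mul, mul_assoc])))
    simp only [ite_mul, zero_mul]
    rw [← sum_filter]
    refine (abs_sum_le_sum_abs _ _).trans ((sum_le_card_nsmul _ _ (Real.log N ^ 2)
      fun n hn => ?_).trans ?_)
    · have h1 := mem_Icc.1 (mem_filter.1 hn).1
      rw [abs_mul, abs_mul, abs_of_nonneg ArithmeticFunction.vonMangoldt_nonneg, sq]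
      exact mul_le_mul (ArithmeticFunction.vonMangoldt_le_log.trans
        (Real.log_le_log (by exact_mod_cast h1.1) (by exact_mod_cast h1.2)))
        ((mul_le_of_le_one_left (abs_nonneg _) (hnu n)).trans (hwg _ n h1.2)) (by positivity) hL.le
    · rw [nsmul_eq_mul]
      refine mul_le_mul_of_nonneg_right (Nat.cast_le.2 ((card_le_card (t := Icc 1 U)
        fun n hn => ?_).trans (by simp))) (by positivity)
      exact mem_Icc.2 ⟨(mem_Icc.1 (mem_filter.1 hn).1).1, (mem_filter.1 hn).2⟩
  have h2 := fun b' => hII b' U (fun x => if c ∣ x ∧ x ≤ N then G (x / c) / Real.log N else 0)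
    (fun s => if s ≤ N ∧ b' * s ≡ c * b + 1 [MOD c * M] then be U s / Real.log N else 0) hU
    (fun n => by
      split_ifs with h
      · rw [abs_div, abs_of_pos hL, div_le_one hL]
        exact hG _ ((Nat.div_le_self _ _).trans h.2)
      · simp) (fun s => by
      split_ifs with h
      · rw [abs_of_nonneg (div_nonneg (be_nonneg U s) hL.le), div_le_one hL]
        rcases Nat.eq_zero_or_pos s with rfl | h0
        · rw [be_eq_zero (Nat.zero_le U)]
          exact hL.le
        · exact (be_le U s).trans (Real.log_le_log (by exact_mod_cast h0) (by exact_mod_cast h.1))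
      · simp) (fun s hs => by
      rw [be_eq_zero (s := s) (by exact_mod_cast hs.trans hU)]
      simp)
  have h3 : |∑ π ∈ Fintype.piFinset P, ∑ n ∈ Icc 1 N, dconv (muH U) (be U) n *
      (nu z n * wg c b M (∏ i, π i) G n)| ≤ c * M * Real.log N ^ 2 * (N / Real.log N ^ A) := by
    have h4 := (abs_sum_le_sum_abs _ _).trans (sum_le_card_nsmul (range (c * M)) _ _
      fun b' _ => h2 b')
    rw [card_range, nsmul_eq_mul, Nat.cast_mul] at h4
    refine le_trans (le_of_eq ?_) ((mul_le_mul_of_nonneg_left h4 (sq_nonneg (Real.log N))).trans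
      (le_of_eq (by ring)))
    rw [← abs_of_nonneg (sq_nonneg (Real.log N)), ← abs_mul]
    refine congrArg _ ?_
    rw [sum_comm (s := range _), mul_sum]
    refine sum_congr rfl fun π hπ => ?_
    have hd : 0 < ∏ i, π i := prod_pos fun i _ => hP i _ (Fintype.mem_piFinset.1 hπ i)
    generalize ∏ i, π i = d at hd
    rw [sum_dconv (muH U) (be U) (fun n => nu z n * wg c b M d G n),
      ← sum_subset (s₁ := Ioc U N) (fun r hr => mem_Icc.2 ⟨by have := mem_Ioc.1 hr; omega,
        (mem_Ioc.1 hr).2⟩) (fun r hr hn => sum_eq_zero fun s _ => by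
          have h1 : ¬ U < r := fun h => hn (mem_Ioc.2 ⟨h, (mem_Icc.1 hr).2⟩)
          simp [muH, h1]), sum_comm (s := range _), mul_sum]
    refine sum_congr rfl fun r hr => ?_
    rw [sum_comm (s := range _), mul_sum]
    refine sum_congr rfl fun s hs => ?_
    obtain ⟨r1, r2⟩ := mem_Ioc.1 hr
    obtain ⟨s1, s2⟩ := mem_Icc.1 hs
    have a1 : r * s ≤ N := by rw [mul_comm]; exact (Nat.le_div_iff_mul_le (by omega)).1 s2
    have a3 : s ≤ N := s2.trans (Nat.div_le_self _ _)
    have a4 : (r * s - 1) / d ≤ N := (Nat.div_le_self _ _).trans (by omega)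
    have a5 : r % (c * M) * s ≡ c * b + 1 [MOD c * M] ↔ r * s ≡ c * b + 1 [MOD c * M] :=
      ⟨fun h => ((Nat.mod_modEq r _).mul_right s).symm.trans h,
        fun h => ((Nat.mod_modEq r _).mul_right s).trans h⟩
    rw [sum_eq_single_of_mem (r % (c * M)) (mem_range.2 (Nat.mod_lt _ (Nat.mul_pos hc hM)))
      fun b' _ hb => if_neg fun h => hb h.2.2.symm]
    simp only [a3, a4, a5, true_and, and_true, muH, if_pos r1, nu, wg, Nat.div_div_eq_div_mul]
    by_cases b1 : d ∣ r * s - 1
    · have e : c * d ∣ r * s - 1 ↔ c ∣ (r * s - 1) / d := by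
        rw [mul_comm c d]
        exact (Nat.dvd_div_iff_mul_dvd b1).symm
      simp only [e]
      rw [mul_comm c d]
      by_cases b2 : Rough z (r * s) <;> by_cases b3 : c ∣ (r * s - 1) / d <;>
        by_cases b4 : r * s ≡ c * b + 1 [MOD c * M] <;> simp only [b1, b2, b3, b4] <;> simp
      field_simp
    · have b2 : ¬ c * d ∣ r * s - 1 := fun h => b1 ((dvd_mul_left _ _).trans h)
      simp [b1, b2]
  refine le_trans (le_of_eq ?_) ((abs_add_le _ _).trans (add_le_add h1 h3))
  refine congrArg _ ?_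
  rw [SS, T1, ← sum_sub_distrib, ← sum_add_distrib]
  refine sum_congr rfl fun π _ => ?_
  rw [← sum_sub_distrib, ← sum_add_distrib]
  refine sum_congr rfl fun n _ => ?_
  conv_lhs => rw [vaughan U n]
  ring

end Vale.Agent.P016
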