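import Vale.Agent.P016.Defs

/-! P016 Cls: the residue class (TASK).
PLAN.  Take `M = 2 |a|`.  It suffices to find `c, b` with `n = c b + 1`, `b` odd, `n ≢ 1` modulo every odd prime `l ∣ a`, and the Jacobi
symbol `J(a | n) = -1` (then `n` is coprime to `a`; `jacobiSym.mod_right`, `jacobiSym.legendreSym.to_jacobiSym`, `legendreSym.eq_pow`,
`p / 2 = (p - 1) / 2`, `-1 ≠ 1` in `ZMod p`).  Write `a = u v²`, `u` squarefree, `u ≠ 1` (`Nat.sq_mul_squarefree` for `|a|`; `a ≠ 0`);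
`J(a | n) = J(u | n)` for `n` coprime to `v` (`jacobiSym.mul_left`, `jacobiSym.sq_one'`).
Case 1: a prime `l ≥ 5` divides `u = l u'`, `l ∤ u'`.  Let `W` be the part of `4 |a|` prime to `l` (`Nat.exists_eq_pow_mul_and_not_dvd`),
`4 |u'| ∣ W`.  CRT: `n ≡ n' ≡ -1 mod W`, `n ≡ 4 mod l`, `n' ≡` a non-residue mod `l` (`FiniteField.exists_nonsquare` or
`quadraticChar_exists_neg_one`).  Then `J(u' | n) = J(u' | n')`, and `J(l | n) = - J(l | n')` by `jacobiSym.quadratic_reciprocity`-type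
lemmas (`n ≡ n' ≡ 3 mod 4`), all symbols are `±1`; one of `n, n'` works with `c = 2`.
Case 2: `|u| ∈ {1, 2, 3, 6}`.  Let `W` be the part of `|a|` prime to `6`; `n ≡ -1 mod W`, `n ≡ r mod 24` with `r = 11` for
`u = -1, 2, -3, 6`, `r = 23` for `u = -2, -6`, and `r = 5`, `c = 4` for `u = 3`; `J(u | n) = J(u | r)` (`4 |u| ∣ 24`), `norm_num`. -/

namespace Vale.Agent.P016

open scoped NumberTheorySymbols

private theorem cls_red {a : ℤ} (ha : a ≠ 0) {c b : ℕ} (hc : c = 2 ∨ c = 4) (hb : Odd b)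
    (h1 : ∀ q : ℕ, q.Prime → q ≠ 2 → (q : ℤ) ∣ a → ¬c * b + 1 ≡ 1 [MOD q])
    (hJ : J(a | c * b + 1) = -1) :
    ClsA c b (2 * a.natAbs) ∧ ClsB a c b (2 * a.natAbs) := by
  have hA : 0 < a.natAbs := Int.natAbs_pos.mpr ha
  have hodd : (c * b + 1) % 2 = 1 := by rcases hc with rfl | rfl <;> omega
  have hg : a.gcd (c * b + 1 : ℕ) = 1 := by
    by_contra h
    have := jacobiSym.eq_zero_iff.mpr ⟨(by omega : c * b + 1 ≠ 0), h⟩
    omega
  have hg' : (c * b + 1).Coprime a.natAbs := by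
    have : a.natAbs.gcd (c * b + 1) = 1 := by rwa [Int.gcd, Int.natAbs_natCast] at hg
    exact Nat.Coprime.symm this
  have h2 : (c * b + 1).Coprime 2 := (Nat.coprime_two_right).mpr (Nat.odd_iff.mpr hodd)
  refine ⟨⟨hc, by omega, ?_, ?_⟩, ?_⟩
  · refine Nat.Coprime.mul_right ((Nat.coprime_two_right).mpr hb) ?_
    refine Nat.coprime_of_dvd fun q hq hqb hqa => ?_
    have hq2 : q ≠ 2 := by
      rintro rfl
      exact (Nat.not_even_iff_odd.mpr hb) (even_iff_two_dvd.mpr hqb)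
    refine h1 q hq hq2 (Int.natCast_dvd.mpr hqa) ?_
    have : c * b ≡ 0 [MOD q] := (Nat.modEq_zero_iff_dvd).mpr (Dvd.dvd.mul_left hqb c)
    simpa using this.add_right 1
  · refine Nat.Coprime.mul_right ?_ (Nat.Coprime.mul_right h2 hg')
    rcases hc with rfl | rfl
    · exact h2
    · exact (h2.pow_right 2 : (4 * b + 1).Coprime (2 ^ 2))
  · intro p hp hpn
    have := Fact.mk hp
    have hd : 4 * a.natAbs ∣ c * (2 * a.natAbs) := by
      rcases hc with rfl | rfl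
      · exact ⟨1, by ring⟩
      · exact ⟨2, by ring⟩
    have hm : p ≡ c * b + 1 [MOD 4 * a.natAbs] := hpn.of_dvd hd
    have hp2 : p % 2 = 1 := by
      have : p ≡ c * b + 1 [MOD 2] := hm.of_dvd ⟨2 * a.natAbs, by ring⟩
      rw [Nat.ModEq] at this
      omega
    have hJp : J(a | p) = -1 := by
      rw [jacobiSym.mod_right a (Nat.odd_iff.mpr hp2), hm,
        ← jacobiSym.mod_right a (Nat.odd_iff.mpr hodd), hJ]
    rw [← jacobiSym.legendreSym.to_jacobiSym] at hJp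
    refine ⟨fun h => ?_, fun h => ?_⟩
    · have := (legendreSym.eq_zero_iff p a).mpr ((ZMod.intCast_zmod_eq_zero_iff_dvd a p).mpr h)
      omega
    · have h3 := legendreSym.eq_pow p a
      rw [hJp, show p / 2 = (p - 1) / 2 by omega, h] at h3
      have hp3 : 2 < p := by
        have := hp.two_le
        omega
      have := Fact.mk hp3
      exact ZMod.neg_one_ne_one (by simpa using h3)

private theorem cls_neg {n W q : ℕ} (hW : 0 < W) (hn : n ≡ W - 1 [MOD W]) (hq : q.Prime)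
    (hqW : q ∣ W) : ¬q ∣ n ∧ (q ≠ 2 → ¬n ≡ 1 [MOD q]) := by
  have h1 : n + 1 ≡ 0 [MOD q] := by
    have h := (hn.add_right 1).of_dvd hqW
    rw [show W - 1 + 1 = W by omega] at h
    exact h.trans ((Nat.modEq_zero_iff_dvd).mpr hqW)
  have h2 : q ∣ n + 1 := (Nat.modEq_zero_iff_dvd).mp h1
  refine ⟨fun h => hq.not_dvd_one ((Nat.dvd_add_right h).mp h2), fun hq2 h => hq2 ?_⟩
  have h3 : 2 ≡ 0 [MOD q] := (h.add_right 1).symm.trans h1
  exact (Nat.prime_dvd_prime_iff_eq hq Nat.prime_two).mp ((Nat.modEq_zero_iff_dvd).mp h3)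

private theorem cls_big {l : ℕ} (hl : l.Prime) (hl5 : 5 ≤ l) {a : ℤ} (ha : a ≠ 0)
    (hla : ¬(l : ℤ) ∣ a) (k : ℕ) :
    ∃ n : ℕ, n % 4 = 3 ∧ (∀ q : ℕ, q.Prime → q ≠ 2 → (q : ℤ) ∣ (l : ℤ) ^ (2 * k + 1) * a →
      ¬n ≡ 1 [MOD q]) ∧ J((l : ℤ) ^ (2 * k + 1) * a | n) = -1 := by
  have := Fact.mk hl
  have hA : 0 < a.natAbs := Int.natAbs_pos.mpr ha
  have hlo : Odd l := hl.odd_of_ne_two (by omega)
  set W := 4 * a.natAbs with hWdef
  have hW : 0 < W := by omega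
  have hco : W.Coprime l := by
    refine Nat.Coprime.symm ((Nat.Prime.coprime_iff_not_dvd hl).mpr fun h => ?_)
    rcases (Nat.Prime.dvd_mul hl).mp h with h | h
    · have := Nat.le_of_dvd (by norm_num) h
      omega
    · exact hla (Int.natCast_dvd.mpr h)
  have hε : J(a | W - 1) = 1 ∨ J(a | W - 1) = -1 := by
    refine jacobiSym.eq_one_or_neg_one ?_
    have : a.natAbs.Coprime (W - 1) := by
      refine Nat.coprime_of_dvd fun q hq hqa hqW => ?_
      exact (cls_neg hW (Nat.ModEq.refl _) hq (Dvd.dvd.mul_left hqa 4)).1 hqW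
    simpa [Int.gcd] using this
  have key : ∀ t : ℕ, ¬t ≡ 1 [MOD l] → ∃ n : ℕ, n % 4 = 3 ∧
      (∀ q : ℕ, q.Prime → q ≠ 2 → (q : ℤ) ∣ (l : ℤ) ^ (2 * k + 1) * a → ¬n ≡ 1 [MOD q]) ∧
      J((l : ℤ) ^ (2 * k + 1) * a | n) =
        ((-1) ^ (l / 2) * J(t | l)) ^ (2 * k + 1) * J(a | W - 1) := by
    intro t ht
    obtain ⟨n, hn1, hn2⟩ := Nat.chineseRemainder hco (W - 1) t
    have hn4 : n % 4 = 3 := by
      have : n ≡ W - 1 [MOD 4] := hn1.of_dvd ⟨_, hWdef⟩
      rw [Nat.ModEq] at this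
      omega
    have hno : Odd n := Nat.odd_iff.mpr (by omega)
    refine ⟨n, hn4, fun q hq hq2 hqd => ?_, ?_⟩
    · rcases (Nat.prime_iff_prime_int.mp hq).dvd_or_dvd hqd with h | h
      · have h' : q ∣ l ^ (2 * k + 1) := by exact_mod_cast h
        have := (Nat.prime_dvd_prime_iff_eq hq hl).mp (hq.dvd_of_dvd_pow h')
        subst this
        exact fun h => ht (hn2.symm.trans h)
      · exact (cls_neg hW hn1 hq (Dvd.dvd.mul_left (Int.natCast_dvd.mp h) 4)).2 hq2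
    · have e1 : J(a | n) = J(a | W - 1) := by
        rw [jacobiSym.mod_right a hno, ← hWdef, hn1,
          ← jacobiSym.mod_right a (Nat.odd_iff.mpr (by omega))]
      have e2 : J((n : ℤ) | l) = J((t : ℤ) | l) := by
        refine jacobiSym.mod_left' ?_
        have := hn2
        rw [Nat.ModEq] at this
        exact_mod_cast this
      have e3 : (-1 : ℤ) ^ (l / 2 * (n / 2)) = (-1) ^ (l / 2) := by
        rw [mul_comm, pow_mul, Odd.neg_one_pow (Nat.odd_iff.mpr (by omega))]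
      rw [jacobiSym.mul_left, jacobiSym.pow_left, jacobiSym.quadratic_reciprocity hlo hno, e1, e2,
        e3]
  obtain ⟨x, hx⟩ := FiniteField.exists_nonsquare (F := ZMod l)
    (by rw [ZMod.ringChar_zmod_n]; omega)
  have hx1 : J((x.val : ℤ) | l) = -1 := by
    rw [← jacobiSym.legendreSym.to_jacobiSym, legendreSym.eq_neg_one_iff']
    simpa using hx
  have hx2 : ¬x.val ≡ 1 [MOD l] := by
    intro h
    have : J((x.val : ℤ) | l) = J(1 | l) := by
      refine jacobiSym.mod_left' ?_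
      rw [Nat.ModEq] at h
      exact_mod_cast h
    rw [jacobiSym.one_left] at this
    omega
  have h41 : J(((4 : ℕ) : ℤ) | l) = 1 := by simpa using jacobiSym.at_four hlo
  have h42 : ¬4 ≡ 1 [MOD l] := by
    intro h
    have := Nat.le_of_dvd (by norm_num) ((Nat.modEq_iff_dvd' (by norm_num)).mp h.symm)
    omega
  obtain ⟨n1, a1, b1, c1⟩ := key _ hx2
  obtain ⟨n2, a2, b2, c2⟩ := key _ h42
  rw [hx1] at c1
  rw [h41] at c2
  have ho : Odd (2 * k + 1) := ⟨k, rfl⟩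
  rcases neg_one_pow_eq_or ℤ (l / 2) with hδ | hδ <;> rcases hε with hε | hε <;>
    rw [hδ, hε] at c1 c2
  · exact ⟨n1, a1, b1, by rw [c1]; simp [ho.neg_one_pow]⟩
  · exact ⟨n2, a2, b2, by rw [c2]; simp⟩
  · exact ⟨n2, a2, b2, by rw [c2]; simp [ho.neg_one_pow]⟩
  · exact ⟨n1, a1, b1, by rw [c1]; simp⟩

private theorem cls_small {u : ℤ} (hu : u.natAbs ∣ 6) {r : ℕ} (hr2 : r % 2 = 1) (hr3 : r % 3 = 2)
    (hJ : J(u | r) = -1) {v : ℕ} (hv : v ≠ 0) :
    ∃ n : ℕ, n ≡ r [MOD 24] ∧ (∀ q : ℕ, q.Prime → q ≠ 2 → (q : ℤ) ∣ u * (v : ℤ) ^ 2 →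
      ¬n ≡ 1 [MOD q]) ∧ J(u * (v : ℤ) ^ 2 | n) = -1 := by
  set W := ∏ q ∈ v.primeFactors.filter (5 ≤ ·), q with hWdef
  have hW : 0 < W := Finset.prod_pos fun q hq => by
    have := (Finset.mem_filter.mp hq).2
    omega
  have hco : Nat.Coprime 24 W := by
    refine Nat.Coprime.prod_right fun q hq => ?_
    obtain ⟨h1, h2⟩ := Finset.mem_filter.mp hq
    have hq := Nat.prime_of_mem_primeFactors h1
    refine Nat.Coprime.symm ((Nat.Prime.coprime_iff_not_dvd hq).mpr fun h => ?_)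
    have h' : q ∣ 2 ^ 3 * 3 := h
    rcases (Nat.Prime.dvd_mul hq).mp h' with h | h
    · have := Nat.le_of_dvd (by norm_num) (hq.dvd_of_dvd_pow h)
      omega
    · have := Nat.le_of_dvd (by norm_num) h
      omega
  have hqW : ∀ q : ℕ, q.Prime → 5 ≤ q → q ∣ v → q ∣ W := fun q hq h5 hqv =>
    Finset.dvd_prod_of_mem _ (Finset.mem_filter.mpr ⟨Nat.mem_primeFactors.mpr ⟨hq, hqv, hv⟩, h5⟩)
  obtain ⟨n, hn1, hn2⟩ := Nat.chineseRemainder hco r (W - 1)
  have hn : n % 24 = r % 24 := hn1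
  have hno : Odd n := Nat.odd_iff.mpr (by omega)
  have h5 : ∀ q : ℕ, q.Prime → q ≠ 2 → q ≠ 3 → 5 ≤ q := fun q hq h2 h3 =>
    hq.five_le_of_ne_two_of_ne_three h2 h3
  refine ⟨n, hn1, fun q hq hq2 hqd => ?_, ?_⟩
  · by_cases hq3 : q = 3
    · subst hq3
      rw [Nat.ModEq]
      omega
    · rcases (Nat.prime_iff_prime_int.mp hq).dvd_or_dvd hqd with h | h
      · have h6 : q ∣ 6 := (Int.natCast_dvd.mp h).trans hu
        have := h5 q hq hq2 hq3
        have h7 := Nat.le_of_dvd (by norm_num) h6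
        interval_cases q
        · omega
        · exact absurd hq (by norm_num)
      · have h' : q ∣ v ^ 2 := by exact_mod_cast h
        exact (cls_neg hW hn2 hq (hqW q hq (h5 q hq hq2 hq3) (hq.dvd_of_dvd_pow h'))).2 hq2
  · have hg : (v : ℤ).gcd n = 1 := by
      have : v.Coprime n := by
        refine Nat.coprime_of_dvd fun q hq hqv hqn => ?_
        by_cases hq2 : q = 2
        · subst hq2
          omega
        by_cases hq3 : q = 3
        · subst hq3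
          omega
        exact (cls_neg hW hn2 hq (hqW q hq (h5 q hq hq2 hq3) hqv)).1 hqn
      simpa [Int.gcd] using this
    have hm : n ≡ r [MOD 4 * u.natAbs] := hn1.of_dvd (Nat.mul_dvd_mul_left 4 hu)
    rw [jacobiSym.mul_left, jacobiSym.sq_one' hg, mul_one, jacobiSym.mod_right u hno, hm,
      ← jacobiSym.mod_right u (Nat.odd_iff.mpr hr2), hJ]

private theorem cls_fin {a : ℤ} (ha : a ≠ 0) {n : ℕ} (hn : n % 4 = 3 ∨ n % 8 = 5)
    (h1 : ∀ q : ℕ, q.Prime → q ≠ 2 → (q : ℤ) ∣ a → ¬n ≡ 1 [MOD q]) (hJ : J(a | n) = -1) :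
    ∃ c b M : ℕ, ClsA c b M ∧ ClsB a c b M := by
  rcases hn with hn | hn
  · obtain ⟨b, hb, rfl⟩ : ∃ b, Odd b ∧ n = 2 * b + 1 :=
      ⟨n / 2, Nat.odd_iff.mpr (by omega), by omega⟩
    exact ⟨2, b, _, cls_red ha (Or.inl rfl) hb h1 hJ⟩
  · obtain ⟨b, hb, rfl⟩ : ∃ b, Odd b ∧ n = 4 * b + 1 :=
      ⟨n / 4, Nat.odd_iff.mpr (by omega), by omega⟩
    exact ⟨4, b, _, cls_red ha (Or.inr rfl) hb h1 hJ⟩

theorem exists_cls {a : ℤ} (ha : ¬IsSquare a) : ∃ c b M : ℕ, ClsA c b M ∧ ClsB a c b M := by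
  have ha0 : a ≠ 0 := by
    rintro rfl
    exact ha ⟨0, by simp⟩
  obtain ⟨u0, v, hu0, hv, huv, hsq⟩ := Nat.sq_mul_squarefree_of_pos (Int.natAbs_pos.mpr ha0)
  obtain ⟨s, hs, rfl⟩ : ∃ s : ℤ, (s = 1 ∨ s = -1) ∧ a = s * u0 * (v : ℤ) ^ 2 := by
    have h : ((v ^ 2 * u0 : ℕ) : ℤ) = (a.natAbs : ℤ) := by rw [huv]
    push_cast at h
    rcases abs_cases a with h' | h'
    · exact ⟨1, Or.inl rfl, by linarith [h'.1]⟩
    · exact ⟨-1, Or.inr rfl, by linarith [h'.1]⟩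
  by_cases hl : ∃ l : ℕ, l.Prime ∧ 5 ≤ l ∧ l ∣ u0
  · obtain ⟨l, hl, hl5, u1, rfl⟩ := hl
    obtain ⟨k, v1, hv1, rfl⟩ := Nat.exists_eq_pow_mul_and_not_dvd hv.ne' l hl.ne_one
    have hu1 : ¬l ∣ u1 := by
      rintro ⟨w, rfl⟩
      exact hl.ne_one (Nat.isUnit_iff.mp (hsq l ⟨w, by ring⟩))
    have e : s * ((l * u1 : ℕ) : ℤ) * ((l ^ k * v1 : ℕ) : ℤ) ^ 2 =
        (l : ℤ) ^ (2 * k + 1) * (s * u1 * (v1 : ℤ) ^ 2) := by
      push_cast
      ring
    have hne : s * u1 * (v1 : ℤ) ^ 2 ≠ 0 := by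
      intro h
      rw [e, h, mul_zero] at ha0
      exact ha0 rfl
    have hnd : ¬(l : ℤ) ∣ s * u1 * (v1 : ℤ) ^ 2 := by
      intro h
      have h' : l ∣ u1 * v1 ^ 2 := by
        have := Int.natCast_dvd.mp h
        rcases hs with rfl | rfl <;> simpa [Int.natAbs_mul, Int.natAbs_pow] using this
      rcases (Nat.Prime.dvd_mul hl).mp h' with h | h
      · exact hu1 h
      · exact hv1 (hl.dvd_of_dvd_pow h)
    obtain ⟨n, h1, h2, h3⟩ := cls_big hl hl5 hne hnd k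
    rw [← e] at h2 h3
    exact cls_fin ha0 (Or.inl h1) h2 h3
  · have h6 : u0 ∣ 6 := by
      rw [← Nat.prod_primeFactors_of_squarefree hsq]
      have hsub : u0.primeFactors ⊆ {2, 3} := by
        intro q hq
        have hq1 := Nat.prime_of_mem_primeFactors hq
        by_contra hne
        simp only [Finset.mem_insert, Finset.mem_singleton, not_or] at hne
        exact hl ⟨q, hq1, hq1.five_le_of_ne_two_of_ne_three hne.1 hne.2,
          Nat.dvd_of_mem_primeFactors hq⟩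
      simpa using Finset.prod_dvd_prod_of_subset _ _ (fun q : ℕ => q) hsub
    have hu : (s * u0).natAbs ∣ 6 := by rcases hs with rfl | rfl <;> simpa using h6
    have fin : ∀ r : ℕ, r % 2 = 1 → r % 3 = 2 → (r % 4 = 3 ∨ r % 8 = 5) → J(s * u0 | r) = -1 →
        ∃ c b M : ℕ, ClsA c b M ∧ ClsB (s * u0 * (v : ℤ) ^ 2) c b M := by
      intro r h2 h3 h4 hJ
      obtain ⟨n, g1, g2, g3⟩ := cls_small hu h2 h3 hJ hv.ne'
      have : n % 24 = r % 24 := g1
      exact cls_fin ha0 (by omega) g2 g3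
    have h7 := Nat.le_of_dvd (by norm_num) h6
    rcases hs with rfl | rfl <;> interval_cases u0
    · exact absurd ⟨v, by push_cast; ring⟩ ha
    · exact fin 11 rfl rfl (by norm_num) (by norm_num)
    · exact fin 5 rfl rfl (by norm_num) (by norm_num)
    · omega
    · omega
    · exact fin 11 rfl rfl (by norm_num) (by norm_num)
    · exact fin 11 rfl rfl (by norm_num) (by norm_num)
    · exact fin 23 rfl rfl (by norm_num) (by norm_num)
    · exact fin 11 rfl rfl (by norm_num) (by norm_num)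
    · omega
    · omega
    · exact fin 23 rfl rfl (by norm_num) (by norm_num)

end Vale.Agent.P016
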