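import Vale.Agent.P016.Defs
import Vale.Agent.P005.Red.Vaughan
import Vale.Agent.Lib.NT.Mertens

/-! P016 Comp: comparison of the densities `1/φ` and `1/id` (TASK).
PLAN.  `VV_cmp`: for odd primes `1 - 1/(l-1) = (1 - 1/l) (1 - 1/(l-1)²)`, and for a set `S` of integers `≥ 3`,
`∏ l ∈ S, (1 - 1/(l-1)²) ≥ ∏ n ∈ Icc 2 m, (1 - 1/n²) = (m+1)/(2m) ≥ 1/2` (`Finset.prod_le_prod_of_subset_of_le_one`).
`rough_gf`: `φ e = e ∏ (1 - 1/p)` (`Nat.totient_eq_mul_prod_factors`), `∏ (1 - 1/p) ≥ 1 - ∑ 1/p ≥ 1 - ω(e)/z`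
(`Finset.one_sub_sum_le_prod_one_sub`-like induction), `2 ^ ω(e) ≤ e ≤ N` so `ω(e) ≤ 2 log N`; with `θ = 2 log N / z ≤ 1/2`,
`1/(1-θ) ≤ 1 + 2θ`.  `QQ_cmp`: termwise; `|∑ log k - N log r| ≤ N log N`, `|muL| ≤ 1`, `abs_cc_le`, `harmonic_le_one_add_log`.
`lamz_le`: `Lib.NT.mertens2`, `log log z ≤ log (sqrt L) = (log L)/2` for `2 ≤ z`; for `z < 2` the sum is empty. -/

namespace Vale.Agent.P016

open Finset Filter Vale.Agent.P005

theorem multG_gf : MultG gf := by
  refine ⟨by simp [gf], fun a b h => ?_, fun e => by unfold gf; positivity, fun l hl => ?_⟩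
  · unfold gf
    rw [Nat.totient_mul h]
    push_cast
    rw [one_div_mul_one_div]
  · unfold gf
    rw [Nat.totient_prime hl, Nat.cast_sub hl.one_le]
    have h2 : (2 : ℝ) ≤ l := by exact_mod_cast hl.two_le
    push_cast
    constructor
    · rw [div_le_one (by linarith)]; linarith
    · rw [div_le_div_iff₀ (by linarith) (by linarith)]; linarith

theorem multG_gi : MultG gi := by
  refine ⟨by simp [gi], fun a b _ => ?_, fun e => by unfold gi; positivity, fun l hl => ?_⟩
  · unfold gi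
    push_cast
    rw [one_div_mul_one_div]
  · unfold gi
    have h2 : (2 : ℝ) ≤ l := by exact_mod_cast hl.two_le
    constructor
    · rw [div_le_one (by linarith)]; linarith
    · exact div_le_div_of_nonneg_right (by norm_num) (by linarith)

theorem VV_nonneg {g : ℕ → ℝ} (hg : MultG g) (z D : ℕ) : 0 ≤ VV z D g := by
  unfold VV
  refine Finset.prod_nonneg fun l hl => ?_
  have := (hg.2.2.2 l (Finset.mem_filter.1 hl).2.1).1
  linarith

theorem VV_le_one {g : ℕ → ℝ} (hg : MultG g) (z D : ℕ) : VV z D g ≤ 1 := by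
  unfold VV
  refine Finset.prod_le_one (fun l hl => ?_) fun l _ => ?_
  · have := (hg.2.2.2 l (Finset.mem_filter.1 hl).2.1).1
    linarith
  · have := hg.2.2.1 l
    linarith

private theorem comp_prod (m : ℕ) :
    ∏ l ∈ Icc 3 (m + 2), (1 - 1 / ((l : ℝ) - 1) ^ 2) = ((m : ℝ) + 2) / (2 * (m + 1)) := by
  induction m with
  | zero => norm_num
  | succ m ih =>
    rw [show m + 1 + 2 = (m + 2) + 1 by ring, Finset.prod_Icc_succ_top (by omega), ih]
    push_cast
    have h1 : (m : ℝ) + 2 + 1 - 1 = m + 2 := by ring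
    rw [h1]
    field_simp
    ring

theorem VV_cmp {D : ℕ} (hD : 2 ∣ D) (z : ℕ) : VV z D gi / 2 ≤ VV z D gf := by
  have h3 : ∀ l ∈ (Icc 1 z).filter (fun l => l.Prime ∧ ¬l ∣ D), 3 ≤ l := fun l hl => by
    have h := (Finset.mem_filter.1 hl).2
    have h2 := h.1.two_le
    rcases h2.eq_or_lt with h2 | h2
    · exact absurd (h2 ▸ hD) h.2
    · omega
  have e : VV z D gf = VV z D gi *
      ∏ l ∈ (Icc 1 z).filter (fun l => l.Prime ∧ ¬l ∣ D), (1 - 1 / ((l : ℝ) - 1) ^ 2) := by
    unfold VV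
    rw [← Finset.prod_mul_distrib]
    refine Finset.prod_congr (by congr) fun l hl => ?_
    have hp := (Finset.mem_filter.1 hl).2.1
    have h3' : (3 : ℝ) ≤ l := by exact_mod_cast h3 l hl
    unfold gf gi
    rw [Nat.totient_prime hp, Nat.cast_sub hp.one_le]
    have h1 : (l : ℝ) - 1 ≠ 0 := by linarith
    have h0 : (l : ℝ) ≠ 0 := by linarith
    push_cast
    field_simp
    ring
  have h4 : (1 : ℝ) / 2 ≤
      ∏ l ∈ (Icc 1 z).filter (fun l => l.Prime ∧ ¬l ∣ D), (1 - 1 / ((l : ℝ) - 1) ^ 2) := by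
    refine le_trans ?_ (Finset.prod_le_prod_of_subset_of_le_one (t := Icc 3 (z + 2))
      (fun l hl => ?_) (fun l hl => ?_) fun l _ _ => ?_)
    · rw [comp_prod, div_le_div_iff₀ (by norm_num) (by positivity)]
      have : (0 : ℝ) ≤ z := by positivity
      linarith
    · have := (Finset.mem_Icc.1 (Finset.mem_filter.1 hl).1).2
      exact Finset.mem_Icc.2 ⟨h3 l hl, by omega⟩
    · have h3' : (3 : ℝ) ≤ l := by exact_mod_cast (Finset.mem_Icc.1 hl).1
      have : 1 / ((l : ℝ) - 1) ^ 2 ≤ 1 := by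
        rw [div_le_one (by nlinarith)]; nlinarith
      linarith
    · have : 0 ≤ 1 / ((l : ℝ) - 1) ^ 2 := by positivity
      linarith
  rw [e]
  have := mul_le_mul_of_nonneg_left h4 (VV_nonneg multG_gi z D)
  linarith

private theorem comp_one_sub (s : Finset ℕ) (f : ℕ → ℝ) (h0 : ∀ i ∈ s, 0 ≤ f i)
    (h1 : ∀ i ∈ s, f i ≤ 1) : 1 - ∑ i ∈ s, f i ≤ ∏ i ∈ s, (1 - f i) := by
  induction s using Finset.induction_on with
  | empty => simp
  | insert a s ha ih =>
    rw [Finset.sum_insert ha, Finset.prod_insert ha]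
    have ih' := ih (fun i hi => h0 i (by simp [hi])) fun i hi => h1 i (by simp [hi])
    have ha0 := h0 a (by simp)
    have ha1 := h1 a (by simp)
    have hs : 0 ≤ ∑ i ∈ s, f i := Finset.sum_nonneg fun i hi => h0 i (by simp [hi])
    nlinarith [mul_le_mul_of_nonneg_left ih' (show 0 ≤ 1 - f a by linarith), mul_nonneg ha0 hs]

private theorem comp_log_pos {N : ℕ} (hN : 3 ≤ N) : 1 ≤ Real.log N := by
  have h3 : (3 : ℝ) ≤ N := by exact_mod_cast hN
  rw [Real.le_log_iff_exp_le (by linarith)]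
  have := Real.exp_one_lt_d9
  linarith

theorem rough_gf {N z e : ℕ} (hN : 3 ≤ N) (hz : 4 * Real.log N ≤ z) (he : 1 ≤ e) (heN : e ≤ N)
    (hr : Rough z e) : gf e ≤ 2 / e ∧ |gf e - gi e| ≤ 4 * Real.log N / z / e := by
  have hL := comp_log_pos hN
  have hz0 : (0 : ℝ) < z := by linarith
  have he0 : (0 : ℝ) < e := by exact_mod_cast he
  set P : ℝ := ∏ p ∈ e.primeFactors, (1 - 1 / (p : ℝ)) with hP
  have hφ : (Nat.totient e : ℝ) = e * P := by
    have h := congrArg (fun q : ℚ => (q : ℝ)) (Nat.totient_eq_mul_prod_factors e)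
    simp only [Rat.cast_mul, Rat.cast_natCast, Rat.cast_prod, Rat.cast_sub, Rat.cast_one,
      Rat.cast_inv] at h
    rw [h, hP]
    simp only [one_div]
  have hp2 : ∀ p ∈ e.primeFactors, (2 : ℝ) ≤ p := fun p hp => by
    exact_mod_cast (Nat.prime_of_mem_primeFactors hp).two_le
  have hω : (e.primeFactors.card : ℝ) ≤ 2 * Real.log N := by
    have h1 : 2 ^ e.primeFactors.card ≤ e := by
      refine le_trans ?_ (Nat.le_of_dvd he (Nat.prod_primeFactors_dvd e))
      exact Finset.pow_card_le_prod _ _ _ fun p hp => (Nat.prime_of_mem_primeFactors hp).two_le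
    have h2 : (2 : ℝ) ^ e.primeFactors.card ≤ N := by exact_mod_cast h1.trans heN
    have h3 := Real.log_le_log (by positivity) h2
    rw [Real.log_pow] at h3
    have h4 := Real.log_two_gt_d9
    have h5 : (0 : ℝ) ≤ e.primeFactors.card := by positivity
    nlinarith
  set θ : ℝ := 2 * Real.log N / z with hθ
  have hθ0 : 0 ≤ θ := by positivity
  have hθ1 : θ ≤ 1 / 2 := by rw [hθ, div_le_iff₀ hz0]; linarith
  have hP1 : 1 - θ ≤ P := by
    refine le_trans ?_ (comp_one_sub e.primeFactors (fun p => 1 / (p : ℝ))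
      (fun p _ => by positivity) fun p hp => ?_)
    · have h1 : ∑ p ∈ e.primeFactors, 1 / (p : ℝ) ≤ ∑ _p ∈ e.primeFactors, 1 / (z : ℝ) :=
        Finset.sum_le_sum fun p hp => by
          have := hr p (Nat.prime_of_mem_primeFactors hp) (Nat.dvd_of_mem_primeFactors hp)
          exact one_div_le_one_div_of_le hz0 (by exact_mod_cast this.le)
      rw [Finset.sum_const, nsmul_eq_mul, mul_one_div] at h1
      have h2 : (e.primeFactors.card : ℝ) / z ≤ θ := div_le_div_of_nonneg_right hω hz0.le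
      linarith
    · have := hp2 p hp
      rw [div_le_one (by linarith)]; linarith
  have hP2 : P ≤ 1 := Finset.prod_le_one (fun p hp => by
      have := hp2 p hp
      have : 1 / (p : ℝ) ≤ 1 := by rw [div_le_one (by linarith)]; linarith
      linarith) fun p _ => by
    have : 0 ≤ 1 / (p : ℝ) := by positivity
    linarith
  have hP0 : 0 < P := by linarith
  have hinv1 : 1 ≤ 1 / P := by rw [le_div_iff₀ hP0]; linarith
  have hinv2 : 1 / P ≤ 1 + 2 * θ := by rw [div_le_iff₀ hP0]; nlinarith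
  have hgf : gf e = 1 / P / e := by unfold gf; rw [hφ]; field_simp
  refine ⟨?_, ?_⟩
  · rw [hgf]
    exact div_le_div_of_nonneg_right (by linarith) he0.le
  · rw [hgf]
    unfold gi
    rw [← sub_div, abs_div, abs_of_pos he0, abs_of_nonneg (by linarith)]
    refine div_le_div_of_nonneg_right ?_ he0.le
    have : 4 * Real.log N / z = 2 * θ := by rw [hθ]; ring
    linarith

private theorem comp_harm {M N : ℕ} (hM : M ≤ N) (hN : 1 ≤ N) :
    ∑ r ∈ Icc 1 M, 1 / (r : ℝ) ≤ 1 + Real.log N := by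
  have h1 : ∑ r ∈ Icc 1 M, 1 / (r : ℝ) ≤ ∑ r ∈ Icc 1 N, 1 / (r : ℝ) :=
    Finset.sum_le_sum_of_subset_of_nonneg (Finset.Icc_subset_Icc_right hM)
      fun _ _ _ => by positivity
  have h2 := harmonic_le_one_add_log N
  rw [harmonic_eq_sum_Icc] at h2
  push_cast at h2
  simp only [one_div] at h1 ⊢
  exact h1.trans h2

theorem QQ_cmp {N U z : ℕ} (hN : 3 ≤ N) (hz : 4 * Real.log N ≤ z) (hU : 1 ≤ U) (hUN : U ^ 2 ≤ N) :
    |QQ N U z gf - QQ N U z gi| ≤ 8 * N * Real.log N ^ 2 * (1 + Real.log N) / z := by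
  have hL := comp_log_pos hN
  have hz0 : (0 : ℝ) < z := by linarith
  have hN0 : (0 : ℝ) < N := by exact_mod_cast (show 0 < N by omega)
  have hUN' : U ≤ N := le_trans (by nlinarith) hUN
  have hnu : ∀ e, 1 ≤ e → e ≤ N → |nu z e * (gf e - gi e)| ≤ 4 * Real.log N / z * (1 / e) :=
    fun e h1 h2 => by
      unfold nu
      split_ifs with h
      · rw [one_mul, mul_one_div]; exact (rough_gf hN hz h1 h2 h).2
      · rw [zero_mul, abs_zero]; positivity
  have hlog : ∀ r : ℕ, 1 ≤ r → r ≤ N → 0 ≤ Real.log r ∧ Real.log r ≤ Real.log N := fun r h1 h2 =>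
    ⟨Real.log_nonneg (by exact_mod_cast h1),
      Real.log_le_log (by exact_mod_cast h1) (by exact_mod_cast h2)⟩
  have hS0 : 0 ≤ ∑ k ∈ Icc 1 N, Real.log k :=
    Finset.sum_nonneg fun k hk => (hlog k (mem_Icc.1 hk).1 (mem_Icc.1 hk).2).1
  have hS1 : ∑ k ∈ Icc 1 N, Real.log k ≤ N * Real.log N := by
    have := Finset.sum_le_sum (s := Icc 1 N) (f := fun k : ℕ => Real.log k)
      (g := fun _ => Real.log N) fun k hk => (hlog k (mem_Icc.1 hk).1 (mem_Icc.1 hk).2).2
    simpa using this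
  have e : QQ N U z gf - QQ N U z gi =
      ∑ r ∈ Icc 1 U, muL U r * (nu z r * (gf r - gi r)) *
          (∑ k ∈ Icc 1 N, Real.log k - N * Real.log r) -
        N * ∑ e ∈ Icc 1 (U ^ 2), cc U e * (nu z e * (gf e - gi e)) := by
    unfold QQ
    have e1 : ∀ a b c d : ℝ, a - N * b - (c - N * d) = (a - c) - N * (b - d) := by
      intro a b c d; ring
    rw [e1, ← Finset.sum_sub_distrib, ← Finset.sum_sub_distrib]
    congr 1
    · exact Finset.sum_congr rfl fun r _ => by ring
    · congr 1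
      exact Finset.sum_congr rfl fun r _ => by ring
  set c : ℝ := 4 * Real.log N / z with hc
  have hc0 : 0 ≤ c := by positivity
  have h1 : |∑ r ∈ Icc 1 U, muL U r * (nu z r * (gf r - gi r)) *
      (∑ k ∈ Icc 1 N, Real.log k - N * Real.log r)| ≤
      c * (N * Real.log N) * (1 + Real.log N) := by
    refine (Finset.abs_sum_le_sum_abs _ _).trans ?_
    refine le_trans (Finset.sum_le_sum (g := fun r : ℕ => c * (N * Real.log N) * (1 / r))
      fun r hr => ?_) ?_
    · have hr1 := (mem_Icc.1 hr).1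
      have hr2 := (mem_Icc.1 hr).2.trans hUN'
      have hm : |muL U r| ≤ 1 := by
        unfold muL
        split_ifs
        · exact_mod_cast ArithmeticFunction.abs_moebius_le_one
        · simp
      have hl := hlog r hr1 hr2
      have hb : |∑ k ∈ Icc 1 N, Real.log k - N * Real.log r| ≤ N * Real.log N := by
        rw [abs_le]
        constructor <;> nlinarith [mul_le_mul_of_nonneg_left hl.2 hN0.le, mul_nonneg hN0.le hl.1]
      rw [abs_mul, abs_mul]
      calc _ ≤ 1 * (c * (1 / r)) * (N * Real.log N) :=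
            mul_le_mul (mul_le_mul hm (hnu r hr1 hr2) (abs_nonneg _) zero_le_one) hb
              (abs_nonneg _) (by positivity)
        _ = _ := by ring
    · rw [← Finset.mul_sum]
      exact mul_le_mul_of_nonneg_left (comp_harm hUN' (by omega)) (by positivity)
  have h2 : |∑ e ∈ Icc 1 (U ^ 2), cc U e * (nu z e * (gf e - gi e))| ≤
      c * Real.log N * (1 + Real.log N) := by
    refine (Finset.abs_sum_le_sum_abs _ _).trans ?_
    refine le_trans (Finset.sum_le_sum (g := fun r : ℕ => c * Real.log N * (1 / r))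
      fun r hr => ?_) ?_
    · have hr1 := (mem_Icc.1 hr).1
      have hr2 := (mem_Icc.1 hr).2.trans hUN
      rw [abs_mul]
      calc _ ≤ Real.log N * (c * (1 / r)) :=
            mul_le_mul ((abs_cc_le U r).trans (hlog r hr1 hr2).2) (hnu r hr1 hr2)
              (abs_nonneg _) (by linarith)
        _ = _ := by ring
    · rw [← Finset.mul_sum]
      exact mul_le_mul_of_nonneg_left (comp_harm hUN (by omega)) (by positivity)
  rw [e]
  refine (abs_sub _ _).trans ?_
  rw [abs_mul, abs_of_pos hN0]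
  have h3 := mul_le_mul_of_nonneg_left h2 hN0.le
  have e2 : 8 * N * Real.log N ^ 2 * (1 + Real.log N) / z =
      c * (N * Real.log N) * (1 + Real.log N) + N * (c * Real.log N * (1 + Real.log N)) := by
    rw [hc]; field_simp; ring
  linarith

theorem lamz_le : ∃ C : ℝ, 0 ≤ C ∧ ∀ (L : ℝ) (z : ℕ), 1 ≤ L → (z : ℝ) ≤ Real.exp (Real.sqrt L) →
    lamz z ≤ Real.log L + C := by
  obtain ⟨C, hC0, hC⟩ := Vale.Agent.Lib.NT.mertens2
  refine ⟨2 * C, by positivity, fun L z hL hz => ?_⟩
  have hl0 : 0 ≤ Real.log L := Real.log_nonneg hL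
  by_cases h2 : 2 ≤ z
  · have h2' : (2 : ℝ) ≤ z := by exact_mod_cast h2
    have h := (abs_le.1 (hC z h2')).2
    rw [Nat.floor_natCast] at h
    have h3 : Real.log z ≤ Real.sqrt L := by
      rw [Real.log_le_iff_le_exp (by linarith)]; exact hz
    have h4 : Real.log (Real.log z) ≤ Real.log (Real.sqrt L) :=
      Real.log_le_log (Real.log_pos (by linarith)) h3
    rw [Real.log_sqrt (by linarith)] at h4
    have h5 : lamz z = 2 * ∑ p ∈ (Icc 1 z).filter Nat.Prime, (1 / (p : ℝ)) := by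
      unfold lamz
      rw [Finset.mul_sum]
      exact Finset.sum_congr (by congr) fun p _ => by ring
    linarith
  · have h5 : lamz z = 0 := by
      unfold lamz
      refine Finset.sum_eq_zero fun p hp => ?_
      have h6 := Finset.mem_filter.1 hp
      have := h6.2.two_le
      have := (mem_Icc.1 h6.1).2
      omega
    rw [h5]; positivity

end Vale.Agent.P016
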