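import Vale.Agent.P005.T2.MajI
import Vale.Agent.P005.Red.Defs
import Vale.Agent.P013.Defs

/-! P016 (Artin's primitive root conjecture): definitions (overview: notes/P016.md).  Do not edit. -/

namespace Vale.Agent.P016

open Finset Filter Vale.Agent.P005
open scoped ArithmeticFunction.vonMangoldt NumberField

noncomputable section

open Classical

/-- the conjecture -/
def Artin : Prop :=
  ∀ a : ℤ, a ≠ -1 → ¬IsSquare a →
    {p : ℕ | p.Prime ∧ ¬(p : ℤ) ∣ a ∧ orderOf (a : ZMod p) = p - 1}.Infinite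

/-- primes up to `N` with primitive root `a` -/
def good (a : ℤ) (N : ℕ) : Finset ℕ :=
  (Icc 1 N).filter fun p => p.Prime ∧ ¬(p : ℤ) ∣ a ∧ orderOf (a : ZMod p) = p - 1

/-- primes `p ≤ N`, `p ≡ 1 mod q`, at which `a` is a `q`-th power -/
def bad (a : ℤ) (q N : ℕ) : Finset ℕ :=
  (Icc 1 N).filter fun p => p.Prime ∧ q ∣ p - 1 ∧ (a : ZMod p) ^ ((p - 1) / q) = 1

/-- the Kummer bound -/
def KB : Prop :=
  ∀ a : ℤ, 2 ≤ |a| → ∃ (η C : ℝ) (k q₀ : ℕ), 0 < η ∧ 0 ≤ C ∧ ∀ q N : ℕ, q.Prime → q₀ ≤ q → 1 ≤ N →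
    (#(bad a q N) : ℝ) ≤ C * (N / (q : ℝ) ^ 2 + (q : ℝ) ^ k * (N : ℝ) ^ (1 - η))

/-- arithmetic conditions on the class `c b + 1` modulo `c M` -/
def ClsA (c b M : ℕ) : Prop :=
  (c = 2 ∨ c = 4) ∧ 0 < M ∧ b.Coprime M ∧ (c * b + 1).Coprime (c * M)

/-- `a` is a quadratic non-residue modulo the primes of the class -/
def ClsB (a : ℤ) (c b M : ℕ) : Prop :=
  ∀ p : ℕ, p.Prime → p ≡ c * b + 1 [MOD c * M] → ¬(p : ℤ) ∣ a ∧ (a : ZMod p) ^ ((p - 1) / 2) ≠ 1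

/-- indicator of rough numbers -/
def nu (z n : ℕ) : ℝ := if Rough z n then 1 else 0

/-- the weight `G m` on `n = c d m + 1` in the class `c b + 1` modulo `c M` -/
def wg (c b M d : ℕ) (G : ℕ → ℝ) (n : ℕ) : ℝ :=
  if c * d ∣ n - 1 ∧ n ≡ c * b + 1 [MOD c * M] then G ((n - 1) / (c * d)) else 0

/-- the marked prime sum -/
def SS (N z c b M : ℕ) {j : ℕ} (P : Fin j → Finset ℕ) (G : ℕ → ℝ) : ℝ :=
  ∑ π ∈ Fintype.piFinset P, ∑ n ∈ Icc 1 N, Λ n * nu z n * wg c b M (∏ i, π i) G n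

/-- its type I part -/
def T1 (N U z c b M : ℕ) {j : ℕ} (P : Fin j → Finset ℕ) (G : ℕ → ℝ) : ℝ :=
  ∑ π ∈ Fintype.piFinset P, ∑ n ∈ Icc 1 N, tI U n * nu z n * wg c b M (∏ i, π i) G n

/-- the density `1 / φ` -/
def gf (e : ℕ) : ℝ := 1 / (Nat.totient e : ℝ)

/-- the density `1 / id` -/
def gi (e : ℕ) : ℝ := 1 / (e : ℝ)

/-- multiplicative densities -/
def MultG (g : ℕ → ℝ) : Prop :=
  g 1 = 1 ∧ (∀ a b, a.Coprime b → g (a * b) = g a * g b) ∧ (∀ e, 0 ≤ g e) ∧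
    ∀ l, l.Prime → g l ≤ 1 ∧ g l ≤ 2 / l

/-- level of distribution -/
def Dens (w : ℕ → ℝ) (N Q D : ℕ) (g : ℕ → ℝ) (κ E : ℝ) : Prop :=
  ∀ e y : ℕ, 1 ≤ e → e ≤ Q → y ≤ N →
    |∑ n ∈ (Icc 1 y).filter (e ∣ ·), w n - κ * y * (if e.Coprime D then g e else 0)| ≤ E

/-- the sieve density -/
def VV (z D : ℕ) (g : ℕ → ℝ) : ℝ :=
  ∏ l ∈ (Icc 1 z).filter (fun l => l.Prime ∧ ¬l ∣ D), (1 - g l)

/-- the type I main term -/
def QQ (N U z : ℕ) (g : ℕ → ℝ) : ℝ :=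
  ∑ r ∈ Icc 1 U, muL U r * nu z r * g r * (∑ k ∈ Icc 1 N, Real.log k - N * Real.log r) -
    N * ∑ e ∈ Icc 1 (U ^ 2), cc U e * nu z e * g e

/-- twice the sum of the reciprocals of the primes up to `z` -/
def lamz (z : ℕ) : ℝ := ∑ l ∈ (Icc 1 z).filter Nat.Prime, 2 / (l : ℝ)

/-- the sieve tail -/
def tail (z K : ℕ) : ℝ := Real.exp (-K + 3 * lamz z)

/-- continuation of `(s - 1) ζ_F(s)` with a bound -/
def XiF (C : ℝ) (F : Type) [Field F] [NumberField F] (Z : ℂ → ℂ) : Prop :=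
  Differentiable ℂ Z ∧ (∀ s : ℂ, 1 < s.re → Z s = (s - 1) * NumberField.dedekindZeta F s) ∧
    ∀ s : ℂ, 1 / 2 ≤ s.re → s.re ≤ 4 → ‖Z s‖ ≤ Real.exp (C *
      (Real.log |(NumberField.discr F : ℝ)| + Module.finrank ℚ F) * (1 + |s.im|))

/-- continuation of the twist by `(N l / 3)` -/
def EtaF (F : Type) [Field F] [NumberField F] : Prop :=
  ∃ Z : ℂ → ℂ, Differentiable ℂ Z ∧ ∀ s : ℂ, 1 < s.re → Z s = (s - 1) *
    ∑' l : nonZeroDivisors (Ideal (𝓞 F)), (legendreSym 3 (Ideal.absNorm l.1) : ℂ) *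
      (Ideal.absNorm l.1 : ℂ) ^ (-s)

/-- Hecke's continuation for fields with a totally non-real integer -/
def Xi0 : Prop :=
  ∃ C : ℝ, 0 < C ∧ ∀ (F : Type) [Field F] [NumberField F],
    (∃ io : 𝓞 F, ∀ φ : F →+* ℂ, (φ io).im ≠ 0) → (∃ Z, XiF C F Z) ∧ EtaF F

/-- the zero-free half plane -/
def ZFF (F : Type) [Field F] [NumberField F] : Prop :=
  ∀ Z : ℂ → ℂ, Differentiable ℂ Z →
    (∀ s : ℂ, 1 < s.re → Z s = (s - 1) * NumberField.dedekindZeta F s) →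
    ∀ s : ℂ, 1999 / 2000 < s.re → Z s ≠ 0

end

end Vale.Agent.P016
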