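import Vale.Agent.P016.Defs
import Vale.Agent.P031.Sieve1

/-! P016 Dens: level of distribution of the two weights (TASK).
PLAN.  If a prime `p` divides `e` and `d * (c * M)`, no `n ≥ 1` with `e ∣ n` has `wg ≠ 0` (`p ∣ d` or `p ∣ c`: `p ∣ n - 1`;
`p ∣ c M`: `p ∣ c b + 1`), so both sides vanish.  Otherwise:
`dens_one`: the conditions `e ∣ n`, `c d ∣ n - 1`, `n ≡ c b + 1 mod c M` describe one class modulo `e d c M`
(`Nat.chineseRemainder`, `Nat.modEq_and_modEq_iff_modEq_mul`; `c ∣ n - 1` follows from the last condition); `P031.sieve_count_modEq`.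
`dens_vm`: `n = c d m + 1`, `m ≤ X = (y - 1) / (c d)` (real), `Λ 0 = 0`; the conditions become `c d m + 1 ≡ 0 mod e`, `d m ≡ b mod M`,
one class `a` modulo `q = e M`, coprime to `q`; `φ q = φ e φ M`.  If `q ≤ X` use `PA` (`0 ≤ C`: `P013.DirA_C` or `q = 1`, `X = 1`) and
`|X - y/(c d)| ≤ 1`; if `X < q` the sum is at most `q log N` and the main term at most `q + 1`.  `y = 0` is trivial.
`S_one`: for `n ≥ 1` the weight is the indicator of one class modulo `d c M`, coprime to the modulus; `PA`, `φ ≤ id`; the prime powers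
that are not rough contribute at most `∑_{p ≤ z} log N` (for each prime `p`, `∑_{p^k ≤ N} log p ≤ log N`; e.g. with
`k₀ = Nat.log p N` all such `p^k` divide `p^k₀`, `ArithmeticFunction.vonMangoldt_sum`). -/

namespace Vale.Agent.P016

open Finset Filter Vale.Agent.P005
open scoped ArithmeticFunction.vonMangoldt

theorem wg_nonneg {c b M d : ℕ} {G : ℕ → ℝ} (hG : ∀ m, 0 ≤ G m) (n : ℕ) : 0 ≤ wg c b M d G n := by
  unfold wg
  split_ifs
  · exact hG _
  · exact le_rfl

theorem dens_pos {c b M : ℕ} (h : ClsA c b M) : 0 < c ∧ 0 < M :=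
  ⟨by rcases h.1 with h | h <;> omega, h.2.1⟩

theorem dens_cop {n a q : ℕ} (h : n ≡ a [MOD q]) (ha : a.Coprime q) : n.Coprime q := by
  unfold Nat.Coprime
  rw [h.gcd_eq]
  exact ha

theorem dens_cls {c b M d : ℕ} (h : ClsA c b M) (hdM : d.Coprime (c * M)) :
    ∃ a : ℕ, a.Coprime (d * (c * M)) ∧ ∀ n, 1 ≤ n →
      ((c * d ∣ n - 1 ∧ n ≡ c * b + 1 [MOD c * M]) ↔ n ≡ a [MOD d * (c * M)]) := by
  obtain ⟨a, h1, h2⟩ := Nat.chineseRemainder hdM 1 (c * b + 1)
  refine ⟨a, Nat.Coprime.mul_right (dens_cop h1 (Nat.coprime_one_left _)) (dens_cop h2 h.2.2.2),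
    fun n hn => ?_⟩
  rw [← Nat.modEq_and_modEq_iff_modEq_mul hdM]
  constructor
  · rintro ⟨a1, a2⟩
    exact ⟨((Nat.modEq_iff_dvd' hn).2 ((dvd_mul_left _ _).trans a1)).symm.trans h1.symm,
      a2.trans h2.symm⟩
  · rintro ⟨a1, a2⟩
    refine ⟨?_, a2.trans h2⟩
    have b1 : d ∣ n - 1 := (Nat.modEq_iff_dvd' hn).1 (a1.trans h1).symm
    have b2 : n ≡ c * b + 1 [MOD c] := (a2.trans h2).of_mul_right M
    have b3 : c * b + 1 ≡ 1 [MOD c] := by
      unfold Nat.ModEq
      rw [Nat.mul_add_mod]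
    have b4 : c ∣ n - 1 := (Nat.modEq_iff_dvd' hn).1 (b2.trans b3).symm
    exact (Nat.Coprime.coprime_mul_right_right hdM).symm.mul_dvd_of_dvd_of_dvd b4 b1

theorem dens_zero {c b M d : ℕ} (h : ClsA c b M) (hdM : d.Coprime (c * M)) (G : ℕ → ℝ) {e : ℕ}
    (he : ¬e.Coprime (d * (c * M))) (y : ℕ) :
    ∑ n ∈ (Icc 1 y).filter (e ∣ ·), wg c b M d G n = 0 := by
  obtain ⟨a, ha, hn⟩ := dens_cls h hdM
  refine sum_eq_zero fun n hn' => ?_
  rw [mem_filter, mem_Icc] at hn'
  unfold wg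
  exact if_neg fun hc => he ((dens_cop ((hn n hn'.1.1).1 hc) ha).coprime_dvd_left hn'.2)

theorem dens_one {c b M d : ℕ} (h : ClsA c b M) (hd : 1 ≤ d) (hdM : d.Coprime (c * M)) (N Q : ℕ) :
    Dens (wg c b M d fun _ => 1) N Q (d * (c * M)) gi (1 / (d * (c * M) : ℝ)) 1 := by
  intro e y he _ _
  by_cases hc : e.Coprime (d * (c * M))
  · obtain ⟨a, ha, hn⟩ := dens_cls h hdM
    obtain ⟨hc0, hM0⟩ := dens_pos h
    obtain ⟨a', h1, h2⟩ := Nat.chineseRemainder hc 0 a
    have key := P031.sieve_count_modEq 1 y a' (e * (d * (c * M))) (by positivity)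
    have e1 : ∑ n ∈ (Icc 1 y).filter (e ∣ ·), wg c b M d (fun _ => 1) n =
        #((Ico 1 (1 + y)).filter fun m => m ≡ a' [MOD e * (d * (c * M))]) := by
      rw [sum_filter, card_filter, show Ico 1 (1 + y) = Icc 1 y by
        rw [add_comm, Ico_add_one_right_eq_Icc]]
      push_cast
      refine sum_congr rfl fun n hn' => ?_
      unfold wg
      simp only [hn n (mem_Icc.1 hn').1, ← Nat.modEq_and_modEq_iff_modEq_mul hc, ← ite_and]
      refine if_congr (and_congr ?_ ?_) rfl rfl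
      · rw [← Nat.modEq_zero_iff_dvd]
        exact ⟨fun x => x.trans h1.symm, fun x => x.trans h1⟩
      · exact ⟨fun x => x.trans h2.symm, fun x => x.trans h2⟩
    rw [e1, if_pos hc, gi]
    refine le_trans (le_of_eq (congrArg (fun x => |_ - x|) ?_)) key
    push_cast
    field_simp
  · rw [dens_zero h hdM _ hc, if_neg hc]
    simp

theorem dens_lin {u q : ℕ} (hq : 1 ≤ q) (h : u.Coprime q) (v : ℕ) :
    ∃ a, ∀ m, (u * m ≡ v [MOD q] ↔ m ≡ a [MOD q]) := by
  have h1 : u * (u ^ (q.totient - 1) * v) ≡ v [MOD q] := by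
    have h2 : 1 ≤ q.totient := Nat.totient_pos.2 hq
    rw [← mul_assoc, ← pow_succ', Nat.sub_add_cancel h2]
    simpa using (Nat.ModEq.pow_totient h).mul_right v
  exact ⟨u ^ (q.totient - 1) * v, fun m =>
    ⟨fun hm => Nat.ModEq.cancel_left_of_coprime h.symm (hm.trans h1.symm),
      fun hm => (hm.mul_left u).trans h1⟩⟩

theorem dens_cls2 {c b M d e : ℕ} (h : ClsA c b M) (hdM : d.Coprime (c * M)) (he : 1 ≤ e)
    (hc : e.Coprime (d * (c * M))) :
    ∃ a : ℕ, a.Coprime (e * M) ∧ ∀ m,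
      ((e ∣ c * d * m + 1 ∧ c * d * m + 1 ≡ c * b + 1 [MOD c * M]) ↔ m ≡ a [MOD e * M]) := by
  obtain ⟨hc0, hM0⟩ := dens_pos h
  have c1 : e.Coprime M := (hc.coprime_mul_left_right).coprime_mul_left_right
  have c2 : (c * d).Coprime e := Nat.Coprime.mul_left
    (hc.coprime_mul_left_right).coprime_mul_right_right.symm hc.coprime_mul_right_right.symm
  obtain ⟨a1, h1⟩ := dens_lin he c2 (e - 1)
  obtain ⟨a2, h2⟩ := dens_lin hM0 hdM.coprime_mul_left_right b
  obtain ⟨a, k1, k2⟩ := Nat.chineseRemainder c1 a1 a2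
  have r1 : ∀ m, e ∣ c * d * m + 1 ↔ m ≡ a [MOD e] := by
    intro m
    have : c * d * m ≡ e - 1 [MOD e] ↔ e ∣ c * d * m + 1 := by
      rw [← Nat.ModEq.add_iff_right (Nat.ModEq.refl 1), Nat.sub_add_cancel he,
        ← Nat.modEq_zero_iff_dvd]
      exact ⟨fun x => x.trans (Nat.modEq_zero_iff_dvd.2 dvd_rfl),
        fun x => x.trans (Nat.modEq_zero_iff_dvd.2 dvd_rfl).symm⟩
    rw [← this, h1]
    exact ⟨fun x => x.trans k1.symm, fun x => x.trans k1⟩
  have r2 : ∀ m, c * d * m + 1 ≡ c * b + 1 [MOD c * M] ↔ d * m ≡ b [MOD M] := by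
    intro m
    rw [Nat.ModEq.add_iff_right (Nat.ModEq.refl 1), mul_assoc,
      Nat.ModEq.mul_left_cancel_iff' hc0.ne']
  refine ⟨a, Nat.Coprime.mul_right ?_ ?_, fun m => ?_⟩
  · have := (r1 a).2 (Nat.ModEq.refl _)
    refine Nat.coprime_of_dvd fun p hp p1 p2 => hp.one_lt.ne' (Nat.dvd_one.1 ?_)
    exact (Nat.dvd_add_right (p1.mul_left _)).1 (p2.trans this)
  · exact (dens_cop ((h2 a).2 k2) h.2.2.1).coprime_mul_left
  · rw [← Nat.modEq_and_modEq_iff_modEq_mul c1, r1, r2, h2]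
    exact and_congr Iff.rfl ⟨fun x => x.trans k2.symm, fun x => x.trans k2⟩

theorem dens_reidx {c b M d e y : ℕ} (hk : 0 < c * d) (hy : 1 ≤ y) :
    ∑ n ∈ (Icc 1 y).filter (e ∣ ·), wg c b M d (fun m => Λ m) n =
      ∑ m ∈ (Icc 1 ((y - 1) / (c * d))).filter
        (fun m => e ∣ c * d * m + 1 ∧ c * d * m + 1 ≡ c * b + 1 [MOD c * M]), Λ m := by
  unfold wg
  rw [← sum_filter, filter_filter]
  symm
  refine sum_bij_ne_zero (fun m _ _ => c * d * m + 1) ?_ ?_ ?_ ?_
  · intro m hm _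
    simp only [mem_filter, mem_Icc, Nat.le_div_iff_mul_le hk] at hm ⊢
    refine ⟨⟨by omega, ?_⟩, hm.2.1, ?_, hm.2.2⟩
    · have := hm.1.2
      rw [mul_comm m] at this
      omega
    · rw [Nat.add_sub_cancel]
      exact dvd_mul_right _ _
  · intro m _ _ m' _ _ hmm
    exact Nat.eq_of_mul_eq_mul_left hk (Nat.add_right_cancel hmm)
  · intro n hn h0
    simp only [mem_filter, mem_Icc] at hn
    obtain ⟨⟨n1, n2⟩, n3, ⟨m, hm⟩, n5⟩ := hn
    have e1 : c * d * m + 1 = n := by omega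
    have e2 : (n - 1) / (c * d) = m := by rw [hm, Nat.mul_div_cancel_left _ hk]
    rw [e2] at h0
    refine ⟨m, ?_, h0, e1⟩
    simp only [mem_filter, mem_Icc, Nat.le_div_iff_mul_le hk, e1]
    refine ⟨⟨Nat.pos_of_ne_zero fun h => h0 (by simp [h]), ?_⟩, n3, n5⟩
    rw [mul_comm m]
    omega
  · intro m _ _
    rw [Nat.add_sub_cancel, Nat.mul_div_cancel_left _ hk]

theorem dens_vm {δ C : ℝ} (hδ : δ ≤ 1 / 4) (hPA : P013.PA δ C) {c b M d : ℕ} (h : ClsA c b M)
    (hd : 1 ≤ d) (hdM : d.Coprime (c * M)) {N : ℕ} (hN : 1 ≤ N) (Q : ℕ) :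
    Dens (wg c b M d fun m => Λ m) N Q (d * (c * M)) gf (1 / (c * d * Nat.totient M : ℝ))
      (C * (N : ℝ) ^ (1 - δ) + Q * M * (Real.log N + 1) + 1) := by
  intro e y he heQ hyN
  have hC : 0 ≤ C := by
    simpa using (abs_nonneg _).trans (hPA 1 0 1 le_rfl (by simp) (by simp))
  have hL : 0 ≤ Real.log N := Real.log_natCast_nonneg N
  have p1 : 0 ≤ C * (N : ℝ) ^ (1 - δ) := by positivity
  have p2 : 0 ≤ (Q : ℝ) * M * (Real.log N + 1) := by positivity
  by_cases hc : e.Coprime (d * (c * M))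
  swap
  · rw [dens_zero h hdM _ hc, if_neg hc, mul_zero, sub_zero, abs_zero]
    linarith
  rcases Nat.eq_zero_or_pos y with hy | hy
  · subst hy
    simp only [zero_lt_one, Icc_eq_empty_of_lt, filter_empty, sum_empty, Nat.cast_zero, mul_zero,
      zero_mul, sub_zero, abs_zero]
    linarith
  obtain ⟨hc0, hM0⟩ := dens_pos h
  have hk : 0 < c * d := by positivity
  obtain ⟨a, ha, hm⟩ := dens_cls2 h hdM he hc
  rw [dens_reidx hk hy, if_pos hc, gf]
  simp only [hm]
  set X := (y - 1) / (c * d) with hX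
  have c1 : e.Coprime M := (hc.coprime_mul_left_right).coprime_mul_left_right
  have hq : 1 ≤ e * M := Nat.mul_pos he hM0
  have hφ : (1 : ℝ) ≤ (e * M).totient := by exact_mod_cast Nat.totient_pos.2 hq
  have hk' : (0 : ℝ) < c * d := by exact_mod_cast hk
  have e1 : 1 / (c * d * Nat.totient M : ℝ) * y * (1 / (Nat.totient e : ℝ)) =
      y / (c * d : ℝ) / ((e * M).totient : ℝ) := by
    rw [Nat.totient_mul c1]
    push_cast
    ring
  have x1 : c * d * X ≤ y := (Nat.mul_div_le _ _).trans (Nat.sub_le _ _)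
  have x2 : y ≤ c * d * X + c * d := by
    have := Nat.lt_mul_div_succ (y - 1) hk
    rw [mul_add, mul_one, ← hX] at this
    omega
  have x3 : |(X : ℝ) / ((e * M).totient : ℝ) - y / (c * d : ℝ) / ((e * M).totient : ℝ)| ≤ 1 := by
    rw [← sub_div, abs_div, abs_of_nonneg (show (0 : ℝ) ≤ (e * M).totient by positivity),
      div_le_one (by linarith)]
    refine le_trans ?_ hφ
    have y1 : (X : ℝ) ≤ y / (c * d : ℝ) := by
      rw [le_div_iff₀ hk', mul_comm]
      exact_mod_cast x1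
    have y2 : y / (c * d : ℝ) ≤ X + 1 := by
      rw [div_le_iff₀ hk', mul_comm, mul_add, mul_one]
      exact_mod_cast x2
    rw [abs_le]
    constructor <;> linarith
  have xN : X ≤ N := ((Nat.div_le_self _ _).trans (Nat.sub_le _ _)).trans hyN
  have x4 : |∑ m ∈ (Icc 1 X).filter (fun m => m ≡ a [MOD e * M]), Λ m -
      (X : ℝ) / ((e * M).totient : ℝ)| ≤ C * (N : ℝ) ^ (1 - δ) + Q * M * (Real.log N + 1) := by
    rcases le_or_gt (e * M) X with hx | hx
    · have k := hPA (e * M) a X hq ha (by exact_mod_cast hx)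
      rw [Nat.floor_natCast] at k
      have : (X : ℝ) ^ (1 - δ) ≤ (N : ℝ) ^ (1 - δ) :=
        Real.rpow_le_rpow (by positivity) (by exact_mod_cast xN) (by linarith)
      have := mul_le_mul_of_nonneg_left this hC
      linarith
    · have z1 : (X : ℝ) ≤ Q * M := by exact_mod_cast hx.le.trans (Nat.mul_le_mul_right _ heQ)
      have z2 : ∑ m ∈ (Icc 1 X).filter (fun m => m ≡ a [MOD e * M]), Λ m ≤ X * Real.log N := by
        refine (sum_le_sum_of_subset_of_nonneg (filter_subset _ _)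
          fun _ _ _ => ArithmeticFunction.vonMangoldt_nonneg).trans ?_
        refine (sum_le_sum (g := fun _ => Real.log N) fun m hm => ?_).trans ?_
        · exact ArithmeticFunction.vonMangoldt_le_log.trans (Real.log_le_log
            (by exact_mod_cast (mem_Icc.1 hm).1) (by exact_mod_cast (mem_Icc.1 hm).2.trans xN))
        · rw [sum_const, Nat.card_Icc, Nat.add_sub_cancel, nsmul_eq_mul]
      have z3 : 0 ≤ ∑ m ∈ (Icc 1 X).filter (fun m => m ≡ a [MOD e * M]), Λ m :=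
        sum_nonneg fun _ _ => ArithmeticFunction.vonMangoldt_nonneg
      have z4 : (X : ℝ) / ((e * M).totient : ℝ) ≤ X := div_le_self (by positivity) hφ
      have z5 : 0 ≤ (X : ℝ) / ((e * M).totient : ℝ) := by positivity
      have z6 := mul_le_mul_of_nonneg_right z1 hL
      have z7 : 0 ≤ (Q : ℝ) * M * Real.log N := by positivity
      rw [abs_le]
      constructor <;> linarith
  rw [e1]
  exact (abs_sub_le _ _ _).trans (add_le_add x4 x3)

theorem dens_pp {p N : ℕ} (hp : p.Prime) (hN : 1 ≤ N) :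
    ∑ n ∈ (Icc 1 N).filter (p ∣ ·), Λ n ≤ Real.log N := by
  rw [← sum_filter_ne_zero]
  calc _ ≤ ∑ n ∈ (p ^ Nat.log p N).divisors, Λ n := by
        refine sum_le_sum_of_subset_of_nonneg (fun n hn => ?_)
          fun _ _ _ => ArithmeticFunction.vonMangoldt_nonneg
        simp only [mem_filter, mem_Icc] at hn
        obtain ⟨q, k, hq, hk, rfl⟩ :=
          (isPrimePow_nat_iff n).1 (ArithmeticFunction.vonMangoldt_ne_zero_iff.1 hn.2)
        have e : p = q := (Nat.prime_dvd_prime_iff_eq hp hq).1 (hp.dvd_of_dvd_pow hn.1.2)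
        subst e
        exact Nat.mem_divisors.2 ⟨pow_dvd_pow _ (Nat.le_log_of_pow_le hp.one_lt hn.1.1.2),
          pow_ne_zero _ hp.ne_zero⟩
    _ = Real.log (p ^ Nat.log p N : ℕ) := ArithmeticFunction.vonMangoldt_sum
    _ ≤ _ := Real.log_le_log (by exact_mod_cast pow_pos hp.pos _)
        (by exact_mod_cast Nat.pow_log_le_self p (by omega))

theorem dens_nr {N : ℕ} (hN : 1 ≤ N) (z : ℕ) :
    ∑ n ∈ Icc 1 N, Λ n * (1 - nu z n) ≤ z * Real.log N := by
  calc ∑ n ∈ Icc 1 N, Λ n * (1 - nu z n)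
      ≤ ∑ n ∈ Icc 1 N, ∑ p ∈ (Icc 1 z).filter Nat.Prime, if p ∣ n then Λ n else 0 := by
        refine sum_le_sum fun n _ => ?_
        have n0 : ∀ p ∈ (Icc 1 z).filter Nat.Prime, 0 ≤ if p ∣ n then Λ n else 0 := fun p _ => by
          split_ifs
          · exact ArithmeticFunction.vonMangoldt_nonneg
          · exact le_rfl
        unfold nu
        split_ifs with hn
        · rw [sub_self, mul_zero]
          exact sum_nonneg n0
        · unfold Rough at hn
          push Not at hn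
          obtain ⟨p, hp, hpn, hpz⟩ := hn
          have := single_le_sum n0 (mem_filter.2 ⟨mem_Icc.2 ⟨hp.one_le, hpz⟩, hp⟩)
          rw [if_pos hpn] at this
          rwa [sub_zero, mul_one]
    _ = ∑ p ∈ (Icc 1 z).filter Nat.Prime, ∑ n ∈ (Icc 1 N).filter (p ∣ ·), Λ n := by
        rw [sum_comm]
        exact sum_congr rfl fun p _ => (sum_filter _ _).symm
    _ ≤ ∑ _p ∈ (Icc 1 z).filter Nat.Prime, Real.log N :=
        sum_le_sum fun p hp => dens_pp (mem_filter.1 hp).2 hN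
    _ ≤ _ := by
        rw [sum_const, nsmul_eq_mul]
        refine mul_le_mul_of_nonneg_right ?_ (Real.log_natCast_nonneg N)
        exact_mod_cast (card_filter_le _ _).trans (by simp)

theorem S_one {δ C : ℝ} (hPA : P013.PA δ C) {c b M d N : ℕ} (h : ClsA c b M) (hd : 1 ≤ d)
    (hdM : d.Coprime (c * M)) (hN : d * (c * M) ≤ N) (z : ℕ) :
    N / (d * (c * M) : ℝ) - C * (N : ℝ) ^ (1 - δ) - z * Real.log N ≤
      ∑ n ∈ Icc 1 N, Λ n * nu z n * wg c b M d (fun _ => 1) n := by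
  obtain ⟨a, ha, hn⟩ := dens_cls h hdM
  obtain ⟨hc0, hM0⟩ := dens_pos h
  have hq : 1 ≤ d * (c * M) := Nat.mul_pos hd (Nat.mul_pos hc0 hM0)
  have k := (abs_le.1 (hPA _ a N hq ha (by exact_mod_cast hN))).1
  rw [Nat.floor_natCast, sum_filter] at k
  have k2 := dens_nr (hq.trans hN) z
  have k3 : (N : ℝ) / (d * (c * M) : ℝ) ≤ N / ((d * (c * M)).totient : ℝ) :=
    div_le_div_of_nonneg_left (by positivity) (by exact_mod_cast Nat.totient_pos.2 hq)
      (by exact_mod_cast Nat.totient_le _)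
  have k4 : ∑ n ∈ Icc 1 N, ((if n ≡ a [MOD d * (c * M)] then Λ n else 0) - Λ n * (1 - nu z n)) ≤
      ∑ n ∈ Icc 1 N, Λ n * nu z n * wg c b M d (fun _ => 1) n := by
    refine sum_le_sum fun n hn' => ?_
    have l0 : 0 ≤ Λ n := ArithmeticFunction.vonMangoldt_nonneg
    unfold wg nu
    simp only [hn n (mem_Icc.1 hn').1]
    split_ifs <;> linarith
  rw [sum_sub_distrib] at k4
  linarith

end Vale.Agent.P016
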