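import Mathlib

/-! P016 Euler: sieving a multiplicative function on ideals (TASK, Mathlib only).
PLAN.  `sieve_id`: induction on `S`.  For a prime `P ∉ S` the map `l ↦ P * l` is a bijection from the nonzero ideals prime to `S` onto those
that are also divisible by `P` (`Function.Injective.tsum_eq` for `l ↦ P * l` on `(Ideal _)⁰`, support in the range; distinct primes
`Q ∣ P * l ↔ Q ∣ l`: `Prime.dvd_or_dvd`, `Ideal.dvd_iff_le`, maximality or `Prime.associated_of_dvd`, `associated_iff_eq`).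
`sieve_lim`: the right side of `sieve_id` minus the term `l = 1` is a sum over `l ≠ 1` prime to `S X`; for fixed `l ≠ 1` pick a prime
factor `P` (`Ideal.exists_le_maximal` or `WfDvdMonoid.exists_irreducible_factor`), the term vanishes once `absNorm P ≤ X`;
`tendsto_tsum_of_dominated_convergence` with the bound `‖f l‖` (`Summable.norm`), limit `∑' l, if l = 1 then 1 else 0`. -/

namespace Vale.Agent.P016

open Filter Topology
open scoped NumberField nonZeroDivisors

variable {F : Type} [Field F] [NumberField F]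

omit [NumberField F] in
theorem euler_summable {f : Ideal (𝓞 F) → ℂ} (hs : Summable fun l : (Ideal (𝓞 F))⁰ => f l.1)
    (p : (Ideal (𝓞 F))⁰ → Prop) [DecidablePred p] :
    Summable fun l : (Ideal (𝓞 F))⁰ => if p l then f l.1 else 0 := by
  refine Summable.of_norm_bounded hs.norm fun l => ?_
  split_ifs
  · exact le_rfl
  · simp

open Classical in
theorem sieve_id {f : Ideal (𝓞 F) → ℂ} (hm : ∀ I J, f (I * J) = f I * f J)
    (hs : Summable fun l : (Ideal (𝓞 F))⁰ => f l.1) (S : Finset (Ideal (𝓞 F)))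
    (hS : ∀ P ∈ S, Prime P) :
    (∑' l : (Ideal (𝓞 F))⁰, f l.1) * ∏ P ∈ S, (1 - f P) =
      ∑' l : (Ideal (𝓞 F))⁰, if ∀ P ∈ S, ¬P ∣ l.1 then f l.1 else 0 := by
  induction S using Finset.induction_on with
  | empty => simp
  | insert P S hP ih =>
    have hPp := hS P (Finset.mem_insert_self P S)
    have hS' : ∀ Q ∈ S, Prime Q := fun Q hQ => hS Q (Finset.mem_insert_of_mem hQ)
    rw [Finset.prod_insert hP, mul_left_comm, ih hS']
    obtain ⟨P', hP'⟩ : ∃ P' : (Ideal (𝓞 F))⁰, P'.1 = P :=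
      ⟨⟨P, mem_nonZeroDivisors_iff_ne_zero.2 hPp.ne_zero⟩, rfl⟩
    have h1 := (mul_right_injective P').tsum_eq
      (f := fun l : (Ideal (𝓞 F))⁰ => if P ∣ l.1 ∧ ∀ Q ∈ S, ¬Q ∣ l.1 then f l.1 else 0) (by
        intro l hl
        have h2 : P ∣ l.1 := by
          by_contra hc
          exact hl (if_neg fun h => hc h.1)
        obtain ⟨m, hm'⟩ := h2
        have hm0 : m ≠ 0 := fun h => nonZeroDivisors.coe_ne_zero l (by rw [hm', h, mul_zero])
        exact ⟨⟨m, mem_nonZeroDivisors_iff_ne_zero.2 hm0⟩,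
          Subtype.ext (by rw [hm', ← hP']; rfl)⟩)
    have h2 : ∀ l : (Ideal (𝓞 F))⁰,
        (if P ∣ (P' * l).1 ∧ ∀ Q ∈ S, ¬Q ∣ (P' * l).1 then f (P' * l).1 else 0) =
          f P * if ∀ Q ∈ S, ¬Q ∣ l.1 then f l.1 else 0 := by
      intro l
      have e : (P' * l).1 = P * l.1 := by rw [← hP']; rfl
      rw [e, mul_ite, mul_zero, hm]
      refine if_congr ⟨fun h Q hQ hd => h.2 Q hQ (hd.mul_left _),
        fun h => ⟨dvd_mul_right _ _, fun Q hQ hd => ?_⟩⟩ rfl rfl
      rcases (hS' Q hQ).dvd_or_dvd hd with h3 | h3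
      · exact hP (associated_iff_eq.1 ((hS' Q hQ).associated_of_dvd hPp h3) ▸ hQ)
      · exact h Q hQ h3
    rw [tsum_congr h2, tsum_mul_left] at h1
    rw [sub_mul, one_mul, h1, ← Summable.tsum_sub (euler_summable hs _) (euler_summable hs _)]
    refine tsum_congr fun l => ?_
    simp only [Finset.forall_mem_insert]
    by_cases h3 : P ∣ l.1 <;> by_cases h4 : ∀ Q ∈ S, ¬Q ∣ l.1 <;> simp only [h3, h4] <;> simp

theorem sieve_lim {f : Ideal (𝓞 F) → ℂ} (hm : ∀ I J, f (I * J) = f I * f J) (h1 : f 1 = 1)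
    (hs : Summable fun l : (Ideal (𝓞 F))⁰ => f l.1) (S : ℕ → Finset (Ideal (𝓞 F)))
    (hS : ∀ X, ∀ P ∈ S X, Prime P) (hX : ∀ X P, Prime P → Ideal.absNorm P ≤ X → P ∈ S X) :
    Tendsto (fun X => (∑' l : (Ideal (𝓞 F))⁰, f l.1) * ∏ P ∈ S X, (1 - f P)) atTop (𝓝 1) := by
  classical
  simp only [fun X => sieve_id hm hs (S X) (hS X)]
  have h2 : (1 : ℂ) = ∑' l : (Ideal (𝓞 F))⁰, if l = 1 then 1 else 0 := by
    rw [tsum_ite_eq]
  rw [h2]
  refine tendsto_tsum_of_dominated_convergence hs.norm (fun l => ?_)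
    (Eventually.of_forall fun X l => ?_)
  · refine tendsto_const_nhds.congr' ?_
    by_cases hl : l = 1
    · refine Eventually.of_forall fun X => ?_
      have h3 : l.1 = 1 := by rw [hl]; rfl
      show (if l = 1 then (1 : ℂ) else 0) = if ∀ P ∈ S X, ¬P ∣ l.1 then f l.1 else 0
      rw [if_pos hl, if_pos fun P hP => h3 ▸ (hS X P hP).not_dvd_one, h3, h1]
    · have hu : ¬ IsUnit l.1 := fun h => hl (Subtype.ext (isUnit_iff_eq_one.1 h))
      obtain ⟨P, hP, hd⟩ := WfDvdMonoid.exists_irreducible_factor hu (nonZeroDivisors.coe_ne_zero l)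
      filter_upwards [eventually_ge_atTop (Ideal.absNorm P)] with X hX'
      rw [if_neg hl, if_neg fun h => h P (hX X P hP.prime hX') hd]
  · split_ifs
    · exact le_rfl
    · simp

end Vale.Agent.P016
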