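import Vale.Agent.P016.Defs

/-! P016 Except: the marked sum is carried by primes with primitive root `a`, up to exceptions (TASK).
PLAN.  `card_pp_le`: a non-prime `n ≤ N` with `Λ n ≠ 0` is `p ^ k`, `2 ≤ k ≤ log₂ N`, `p ≤ sqrt N`.
`card_dvd_le`: distinct primes dividing the nonzero integer `a ^ m - 1`: `2 ^ card ≤ |a ^ m - 1| ≤ |a| ^ m + 1 ≤ 2 ^ (|a| m)`
(`Nat.primeFactors`, `Finset.prod_primes_dvd`, `|a| + 1 ≤ 2 ^ |a|`).
`order_cases`: if `orderOf a ≠ p - 1` then some prime `l ∣ p - 1` has `a ^ ((p-1)/l) = 1` (`orderOf_eq_of_pow_and_pow_div_prime`,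
`ZMod.pow_card_sub_one_eq_one`); `l ∣ c * ∏ π * r`.
`except`: every term is at most `L²`.  A nonzero term `(π, n)`, `n = c d m + 1`, has: `n` not prime, or `m` not prime (each at most
`2 sqrt N L` values of `n` for fixed `π`), or `n ∣ a ^ (c d) - 1` (at most `c d |a| ≤ 4 |a| exp (j sqrt L)` values), or `n, m` prime and
`n ∈ good ∪ ⋃ q, bad q`.  For fixed `n`, the `π` with `n - 1 = c (∏ π) m`, `m` prime, lie in `piFinset (fun _ => ((n-1)/c).primeFactors)`,
and that set of primes has at most `j + 1` elements (it is contained in `insert m (image π univ)` for any one such `π`). -/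

namespace Vale.Agent.P016

open Finset Filter Vale.Agent.P005
open scoped ArithmeticFunction.vonMangoldt

open Classical in
theorem card_pp_le {N : ℕ} (hN : 1 ≤ N) :
    (#((Icc 1 N).filter fun n => Λ n ≠ 0 ∧ ¬n.Prime) : ℝ) ≤ 2 * Real.sqrt N * Real.log N := by
  have hsub : ((Icc 1 N).filter fun n => Λ n ≠ 0 ∧ ¬n.Prime) ⊆
      (Icc 1 (Nat.sqrt N) ×ˢ Icc 1 (Nat.log 2 N)).image (fun x : ℕ × ℕ => x.1 ^ x.2) := by
    intro n hn
    simp only [mem_filter, mem_Icc] at hn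
    obtain ⟨⟨h1, h2⟩, h3, h4⟩ := hn
    rw [ArithmeticFunction.vonMangoldt_ne_zero_iff, isPrimePow_nat_iff] at h3
    obtain ⟨p, k, hp, hk, rfl⟩ := h3
    have hk2 : 2 ≤ k := by
      by_contra hc
      have : k = 1 := by omega
      subst this
      exact h4 (by simpa using hp)
    refine mem_image.2 ⟨(p, k), ?_, rfl⟩
    simp only [mem_product, mem_Icc]
    refine ⟨⟨hp.one_le, ?_⟩, hk, ?_⟩
    · rw [Nat.le_sqrt']
      exact (Nat.pow_le_pow_right hp.pos hk2).trans h2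
    · exact Nat.le_log_of_pow_le (by norm_num) ((Nat.pow_le_pow_left hp.two_le k).trans h2)
  have h1 := (card_le_card hsub).trans card_image_le
  rw [card_product, Nat.card_Icc, Nat.card_Icc] at h1
  simp only [add_tsub_cancel_right] at h1
  have h2 : (Nat.sqrt N : ℝ) ≤ Real.sqrt N := Real.nat_sqrt_le_real_sqrt
  have h3 : (Nat.log 2 N : ℝ) ≤ 2 * Real.log N := by
    have h4 : ((2 : ℝ)) ^ (Nat.log 2 N) ≤ N := by
      exact_mod_cast Nat.pow_log_le_self 2 (by omega : N ≠ 0)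
    have h5 := Real.log_le_log (by positivity) h4
    rw [Real.log_pow] at h5
    have h6 := Real.log_two_gt_d9
    have h7 : (0 : ℝ) ≤ (Nat.log 2 N : ℝ) := Nat.cast_nonneg _
    nlinarith
  calc (#((Icc 1 N).filter fun n => Λ n ≠ 0 ∧ ¬n.Prime) : ℝ)
      ≤ ((Nat.sqrt N * Nat.log 2 N : ℕ) : ℝ) := by exact_mod_cast h1
    _ = (Nat.sqrt N : ℝ) * (Nat.log 2 N : ℝ) := by push_cast; ring
    _ ≤ Real.sqrt N * (2 * Real.log N) :=
        mul_le_mul h2 h3 (Nat.cast_nonneg _) (Real.sqrt_nonneg _)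
    _ = _ := by ring

open Classical in
theorem card_dvd_le {a : ℤ} (ha : 2 ≤ |a|) {m : ℕ} (hm : 1 ≤ m) (N : ℕ) :
    (#((Icc 1 N).filter fun p : ℕ => p.Prime ∧ (a : ZMod p) ^ m = 1) : ℝ) ≤ |a| * m := by
  set S := (Icc 1 N).filter fun p : ℕ => p.Prime ∧ (a : ZMod p) ^ m = 1 with hS
  have hA : 2 ≤ a.natAbs := by
    have : ((2 : ℕ) : ℤ) ≤ (a.natAbs : ℤ) := by rw [Int.natCast_natAbs]; exact ha
    exact_mod_cast this
  have hne : (a ^ m - 1).natAbs ≠ 0 := by
    intro h0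
    rw [Int.natAbs_eq_zero, sub_eq_zero] at h0
    have h1 := congrArg Int.natAbs h0
    rw [Int.natAbs_pow, Int.natAbs_one] at h1
    have h2 : 2 ^ m ≤ a.natAbs ^ m := Nat.pow_le_pow_left hA m
    have h3 : 2 ^ 1 ≤ 2 ^ m := Nat.pow_le_pow_right (by norm_num) hm
    omega
  have hdvd : ∏ p ∈ S, p ∣ (a ^ m - 1).natAbs := by
    refine Finset.prod_primes_dvd _ (fun p hp => ?_) (fun p hp => ?_)
    · exact (mem_filter.1 hp).2.1.prime
    · have h1 := (mem_filter.1 hp).2.2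
      rw [← Int.natCast_dvd, ← ZMod.intCast_zmod_eq_zero_iff_dvd]
      push_cast
      rw [h1, sub_self]
  have h1 : 2 ^ #S ≤ ∏ p ∈ S, p :=
    Finset.pow_card_le_prod S (fun p => p) 2 (fun p hp => (mem_filter.1 hp).2.1.two_le)
  have h2 : ∏ p ∈ S, p ≤ (a ^ m - 1).natAbs := Nat.le_of_dvd (Nat.pos_of_ne_zero hne) hdvd
  have h3 : (a ^ m - 1).natAbs ≤ a.natAbs ^ m + 1 := by
    have := Int.natAbs_sub_le (a ^ m) 1
    rwa [Int.natAbs_pow, Int.natAbs_one] at this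
  have h4 : a.natAbs ^ m + 1 ≤ (2 ^ a.natAbs) ^ m :=
    Nat.pow_lt_pow_left Nat.lt_two_pow_self (by omega)
  have h5 : 2 ^ #S ≤ 2 ^ (a.natAbs * m) := by
    rw [pow_mul]; omega
  have h6 : #S ≤ a.natAbs * m := (Nat.pow_le_pow_iff_right (by norm_num)).1 h5
  have h7 : ((#S : ℕ) : ℝ) ≤ ((a.natAbs * m : ℕ) : ℝ) := by exact_mod_cast h6
  rw [Nat.cast_mul, Nat.cast_natAbs] at h7
  exact h7

theorem order_cases {a : ℤ} {p c r j : ℕ} {π : Fin j → ℕ} (hp : p.Prime) (hc : c = 2 ∨ c = 4)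
    (hr : r.Prime) (hπ : ∀ i, (π i).Prime) (e : p - 1 = c * (∏ i, π i) * r) (ha : ¬(p : ℤ) ∣ a)
    (h2 : (a : ZMod p) ^ ((p - 1) / 2) ≠ 1) :
    orderOf (a : ZMod p) = p - 1 ∨ (∃ i, (a : ZMod p) ^ ((p - 1) / π i) = 1) ∨
      (a : ZMod p) ^ (c * ∏ i, π i) = 1 := by
  by_contra hcon
  push Not at hcon
  obtain ⟨h3, h4, h5⟩ := hcon
  have := Fact.mk hp
  apply h3
  have ha0 : (a : ZMod p) ≠ 0 := by
    rwa [Ne, ZMod.intCast_zmod_eq_zero_iff_dvd]
  refine orderOf_eq_of_pow_and_pow_div_prime (by have := hp.two_le; omega)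
    (ZMod.pow_card_sub_one_eq_one ha0) (fun l hl hd => ?_)
  have hd' := hd
  rw [e] at hd'
  rcases (Nat.Prime.dvd_mul hl).1 hd' with h6 | h6
  · rcases (Nat.Prime.dvd_mul hl).1 h6 with h7 | h7
    · have h8 : l ∣ 2 := by
        rcases hc with rfl | rfl
        · exact h7
        · exact hl.dvd_of_dvd_pow (n := 2) (m := 2) (by simpa using h7)
      have h9 : l = 2 := (Nat.prime_dvd_prime_iff_eq hl Nat.prime_two).1 h8
      rw [h9]; exact h2
    · obtain ⟨i, -, hi⟩ := (Prime.dvd_finsetProd_iff hl.prime _).1 h7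
      have h9 : l = π i := (Nat.prime_dvd_prime_iff_eq hl (hπ i)).1 hi
      rw [h9]; exact h4 i
  · have h9 : l = r := (Nat.prime_dvd_prime_iff_eq hl hr).1 h6
    rw [h9, e, Nat.mul_div_cancel _ hr.pos]
    exact h5

open Classical in
private theorem except_fib {j c : ℕ} (hc : 0 < c) {P : Fin j → Finset ℕ}
    (hP : ∀ i, ∀ p ∈ P i, p.Prime) (n : ℕ) :
    #((Fintype.piFinset P).filter fun π => ∃ m : ℕ, m.Prime ∧ n - 1 = c * (∏ i, π i) * m) ≤
      (j + 1) ^ j := by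
  rcases ((Fintype.piFinset P).filter
    fun π => ∃ m : ℕ, m.Prime ∧ n - 1 = c * (∏ i, π i) * m).eq_empty_or_nonempty with h0 | h0
  · rw [h0]; simp
  obtain ⟨π₀, h0⟩ := h0
  obtain ⟨h1, m₀, hm₀, e₀⟩ := mem_filter.1 h0
  have hsub : ((Fintype.piFinset P).filter
      fun π => ∃ m : ℕ, m.Prime ∧ n - 1 = c * (∏ i, π i) * m) ⊆
      Fintype.piFinset (fun _ : Fin j => insert m₀ (univ.image π₀)) := by
    intro π hπ
    obtain ⟨h2, m, hm, e⟩ := mem_filter.1 hπ
    rw [Fintype.mem_piFinset] at h1 h2 ⊢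
    intro i
    have hp := hP i _ (h2 i)
    have e1 : (∏ i, π i) * m = (∏ i, π₀ i) * m₀ := by
      apply Nat.eq_of_mul_eq_mul_left hc
      rw [← mul_assoc, ← mul_assoc, ← e, ← e₀]
    have hd : π i ∣ (∏ i, π₀ i) * m₀ := by
      rw [← e1]
      exact Dvd.dvd.mul_right (dvd_prod_of_mem _ (mem_univ i)) _
    rcases (Nat.Prime.dvd_mul hp).1 hd with h3 | h3
    · obtain ⟨i', -, hi⟩ := (Prime.dvd_finsetProd_iff hp.prime _).1 h3
      have h9 : π i = π₀ i' := (Nat.prime_dvd_prime_iff_eq hp (hP i' _ (h1 i'))).1 hi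
      exact mem_insert_of_mem (mem_image.2 ⟨i', mem_univ _, h9.symm⟩)
    · have h9 : π i = m₀ := (Nat.prime_dvd_prime_iff_eq hp hm₀).1 h3
      rw [h9]; exact mem_insert_self _ _
  refine (card_le_card hsub).trans ?_
  rw [Fintype.card_piFinset, prod_const, card_univ, Fintype.card_fin]
  refine Nat.pow_le_pow_left ?_ j
  refine (card_insert_le _ _).trans ?_
  have := card_image_le (s := (univ : Finset (Fin j))) (f := π₀)
  rw [card_univ, Fintype.card_fin] at this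
  omega

open Classical in
private theorem except_one {a : ℤ} (ha : 2 ≤ |a|) {N B z c b M j : ℕ} {lam : ℝ}
    {P : Fin j → Finset ℕ}
    (hN : 3 ≤ N) (h : ClsA c b M) (h' : ClsB a c b M) (hP : Slots N B lam P)
    (G : Finset ℕ) (hG1 : good a N ⊆ G)
    (hG2 : ∀ q ∈ (Icc 1 ⌊Real.exp (Real.sqrt (Real.log N))⌋₊).filter
          (fun q : ℕ => q.Prime ∧ Real.log N ^ B ≤ q), bad a q N ⊆ G)
    {π : Fin j → ℕ} (hπ : π ∈ Fintype.piFinset P) :
    ∑ n ∈ Icc 1 N, Λ n * nu z n * wg c b M (∏ i, π i) (fun m => Λ m) n ≤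
      Real.log N ^ 2 * (#(G.filter fun n => ∃ m : ℕ, m.Prime ∧ n - 1 = c * (∏ i, π i) * m) : ℝ) +
        Real.log N ^ 2 * (4 * Real.sqrt N * Real.log N +
          4 * |a| * Real.exp (j * Real.sqrt (Real.log N))) := by
  rw [Fintype.mem_piFinset] at hπ
  have hπp : ∀ i, (π i).Prime := fun i => (hP.1 i _ (hπ i)).1
  have hc : 0 < c := by rcases h.1 with h1 | h1 <;> omega
  have hc4 : c ≤ 4 := by rcases h.1 with h1 | h1 <;> omega
  set d := ∏ i, π i with hd
  have hd0 : 0 < d := prod_pos fun i _ => (hπp i).pos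
  have hcd : 0 < c * d := Nat.mul_pos hc hd0
  have hL : 0 ≤ Real.log N := Real.log_natCast_nonneg N
  have hlog : ∀ n : ℕ, n ≤ N → Λ n ≤ Real.log N := by
    intro n hn
    refine ArithmeticFunction.vonMangoldt_le_log.trans ?_
    rcases Nat.eq_zero_or_pos n with rfl | h0
    · simpa using hL
    · exact Real.log_le_log (by exact_mod_cast h0) (by exact_mod_cast hn)
  set T := (Icc 1 N).filter fun n => Λ n ≠ 0 ∧ c * d ∣ n - 1 ∧ n ≡ c * b + 1 [MOD c * M] ∧
    Λ ((n - 1) / (c * d)) ≠ 0 with hT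
  set PP := (Icc 1 N).filter fun n => Λ n ≠ 0 ∧ ¬n.Prime with hPP
  set A := G.filter fun n => ∃ m : ℕ, m.Prime ∧ n - 1 = c * d * m with hA
  set D := (Icc 1 N).filter fun p : ℕ => p.Prime ∧ (a : ZMod p) ^ (c * d) = 1 with hD
  have h1 : ∑ n ∈ Icc 1 N, Λ n * nu z n * wg c b M d (fun m => Λ m) n ≤
      Real.log N ^ 2 * (#T : ℝ) := by
    have h2 : ∑ n ∈ Icc 1 N, Λ n * nu z n * wg c b M d (fun m => Λ m) n =
        ∑ n ∈ T, Λ n * nu z n * wg c b M d (fun m => Λ m) n := by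
      symm
      refine sum_subset (filter_subset _ _) (fun n hn hn' => ?_)
      by_contra h0
      apply hn'
      have h3 := left_ne_zero_of_mul (left_ne_zero_of_mul h0)
      have h4 := right_ne_zero_of_mul h0
      unfold wg at h4
      split_ifs at h4 with h5
      · exact mem_filter.2 ⟨hn, h3, h5.1, h5.2, h4⟩
      · exact absurd rfl h4
    rw [h2, mul_comm, ← nsmul_eq_mul]
    refine sum_le_card_nsmul _ _ _ (fun n hn => ?_)
    obtain ⟨hn1, -, h5, h6, -⟩ := mem_filter.1 hn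
    have hn2 := (mem_Icc.1 hn1).2
    have h7 : wg c b M d (fun m => Λ m) n = Λ ((n - 1) / (c * d)) := by
      unfold wg; rw [if_pos ⟨h5, h6⟩]
    rw [h7]
    have h8 := hlog n hn2
    have h9 := hlog ((n - 1) / (c * d)) ((Nat.div_le_self _ _).trans (by omega))
    have h10 : nu z n ≤ 1 := by unfold nu; split_ifs <;> norm_num
    have h11 : 0 ≤ nu z n := by unfold nu; split_ifs <;> norm_num
    have h12 : 0 ≤ Λ n := ArithmeticFunction.vonMangoldt_nonneg
    have h13 : 0 ≤ Λ ((n - 1) / (c * d)) := ArithmeticFunction.vonMangoldt_nonneg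
    calc Λ n * nu z n * Λ ((n - 1) / (c * d)) ≤ Real.log N * 1 * Real.log N := by gcongr
      _ = _ := by ring
  have hsub : T ⊆ A ∪ PP ∪ PP.image (fun m => c * d * m + 1) ∪ D := by
    intro n hn
    obtain ⟨hn1, h3, h5, h6, h7⟩ := mem_filter.1 hn
    have hn2 := mem_Icc.1 hn1
    obtain ⟨m, hm⟩ := h5
    have hmm : (n - 1) / (c * d) = m := by rw [hm, Nat.mul_div_cancel_left _ hcd]
    rw [hmm] at h7
    simp only [mem_union]
    by_cases hnp : n.Prime
    swap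
    · exact Or.inl (Or.inl (Or.inr (mem_filter.2 ⟨hn1, h3, hnp⟩)))
    by_cases hmp : m.Prime
    swap
    · refine Or.inl (Or.inr (mem_image.2 ⟨m, mem_filter.2 ⟨mem_Icc.2 ⟨?_, ?_⟩, h7, hmp⟩, by omega⟩))
      · rcases Nat.eq_zero_or_pos m with rfl | h0
        · simp at h7
        · exact h0
      · rw [← hmm]; exact (Nat.div_le_self _ _).trans (by omega)
    obtain ⟨hb1, hb2⟩ := h' n hnp h6
    rcases order_cases hnp h.1 hmp hπp hm hb1 hb2 with h8 | ⟨i, h8⟩ | h8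
    · exact Or.inl (Or.inl (Or.inl (mem_filter.2
        ⟨hG1 (mem_filter.2 ⟨hn1, hnp, hb1, h8⟩), m, hmp, hm⟩)))
    · refine Or.inl (Or.inl (Or.inl (mem_filter.2 ⟨hG2 (π i) ?_ ?_, m, hmp, hm⟩)))
      · obtain ⟨g1, g2, g3⟩ := hP.1 i _ (hπ i)
        exact mem_filter.2 ⟨mem_Icc.2 ⟨g1.one_le, Nat.le_floor g3⟩, g1, g2⟩
      · refine mem_filter.2 ⟨hn1, hnp, ?_, h8⟩
        rw [hm]
        exact Dvd.dvd.mul_right (Dvd.dvd.mul_left (dvd_prod_of_mem _ (mem_univ i)) _) _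
    · exact Or.inr (mem_filter.2 ⟨hn1, hnp, h8⟩)
  have h2 : #T ≤ #A + #PP + #PP + #D := by
    refine (card_le_card hsub).trans ?_
    refine (card_union_le _ _).trans (Nat.add_le_add_right ?_ _)
    refine (card_union_le _ _).trans (Nat.add_le_add (card_union_le _ _) card_image_le)
  have h3 : (#T : ℝ) ≤ #A + #PP + #PP + #D := by exact_mod_cast h2
  have h4 : (#PP : ℝ) ≤ 2 * Real.sqrt N * Real.log N := card_pp_le (by omega)
  have h5 : (#D : ℝ) ≤ |a| * (c * d : ℕ) := card_dvd_le ha hcd N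
  have h6 : (d : ℝ) ≤ Real.exp (j * Real.sqrt (Real.log N)) := by
    rw [Real.exp_nat_mul, hd, Nat.cast_prod]
    calc ∏ i, (π i : ℝ) ≤ ∏ _i : Fin j, Real.exp (Real.sqrt (Real.log N)) :=
          prod_le_prod (fun i _ => Nat.cast_nonneg _) (fun i _ => (hP.1 i _ (hπ i)).2.2)
      _ = _ := by rw [prod_const, card_univ, Fintype.card_fin]
  have h7 : ((|a| : ℤ) : ℝ) * (c * d : ℕ) ≤
      4 * |a| * Real.exp (j * Real.sqrt (Real.log N)) := by
    have g1 : (c : ℝ) ≤ 4 := by exact_mod_cast hc4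
    have g2 : (0 : ℝ) ≤ ((|a| : ℤ) : ℝ) := by exact_mod_cast abs_nonneg a
    rw [Nat.cast_mul]
    calc ((|a| : ℤ) : ℝ) * (c * d) ≤ ((|a| : ℤ) : ℝ) * (4 * Real.exp (j * Real.sqrt (Real.log N))) := by
          gcongr
      _ = _ := by ring
  rw [← mul_add]
  refine h1.trans (mul_le_mul_of_nonneg_left ?_ (by positivity))
  linarith

open Classical in
theorem except {a : ℤ} (ha : 2 ≤ |a|) {N B z c b M j : ℕ} {lam : ℝ} {P : Fin j → Finset ℕ}
    (hN : 3 ≤ N) (h : ClsA c b M) (h' : ClsB a c b M) (hP : Slots N B lam P) :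
    SS N z c b M P (fun m => Λ m) ≤
      (j + 1) ^ j * Real.log N ^ 2 * (#(good a N) +
        ∑ q ∈ (Icc 1 ⌊Real.exp (Real.sqrt (Real.log N))⌋₊).filter
          (fun q : ℕ => q.Prime ∧ Real.log N ^ B ≤ q), (#(bad a q N) : ℝ)) +
      #(Fintype.piFinset P) * Real.log N ^ 2 * (4 * Real.sqrt N * Real.log N +
        4 * |a| * Real.exp (j * Real.sqrt (Real.log N))) := by
  set Q := (Icc 1 ⌊Real.exp (Real.sqrt (Real.log N))⌋₊).filter
          (fun q : ℕ => q.Prime ∧ Real.log N ^ B ≤ q) with hQ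
  set G := good a N ∪ Q.biUnion (fun q => bad a q N) with hG
  have hc : 0 < c := by rcases h.1 with h1 | h1 <;> omega
  have hGc : (#G : ℝ) ≤ #(good a N) + ∑ q ∈ Q, (#(bad a q N) : ℝ) := by
    have : #G ≤ #(good a N) + ∑ q ∈ Q, #(bad a q N) :=
      (card_union_le _ _).trans (Nat.add_le_add_left card_biUnion_le _)
    exact_mod_cast this
  have h1 : ∑ π ∈ Fintype.piFinset P,
      #(G.filter fun n => ∃ m : ℕ, m.Prime ∧ n - 1 = c * (∏ i, π i) * m) ≤ #G * (j + 1) ^ j := by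
    simp only [card_filter]
    rw [sum_comm, ← smul_eq_mul]
    refine sum_le_card_nsmul _ _ _ (fun n _ => ?_)
    rw [← card_filter]
    exact except_fib hc (fun i p hp => (hP.1 i p hp).1) n
  have h2 : ∑ π ∈ Fintype.piFinset P,
      (#(G.filter fun n => ∃ m : ℕ, m.Prime ∧ n - 1 = c * (∏ i, π i) * m) : ℝ) ≤
        #G * (j + 1) ^ j := by exact_mod_cast h1
  unfold SS
  refine (sum_le_sum fun π hπ => except_one ha hN h h' hP G subset_union_left
    (fun q hq => (subset_biUnion_of_mem (fun q => bad a q N) hq).trans subset_union_right)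
    hπ).trans ?_
  rw [sum_add_distrib, ← mul_sum, sum_const, nsmul_eq_mul, ← mul_assoc]
  refine add_le_add ?_ le_rfl
  calc Real.log N ^ 2 * ∑ π ∈ Fintype.piFinset P,
      (#(G.filter fun n => ∃ m : ℕ, m.Prime ∧ n - 1 = c * (∏ i, π i) * m) : ℝ)
      ≤ Real.log N ^ 2 * ((#(good a N) + ∑ q ∈ Q, (#(bad a q N) : ℝ)) * (j + 1) ^ j) := by
        refine mul_le_mul_of_nonneg_left (h2.trans ?_) (by positivity)
        gcongr
    _ = _ := by ring

end Vale.Agent.P016
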