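import Vale.Agent.P016.LowA
import Vale.Agent.P005.Red.Var

/-! P016 LowB: the asymptotic lower bound (TASK).
PLAN.  `TypeIIz'` with `δ = δ₀ / 16`, `A = 3`, `B = 4`, `lam = 1`, `M0 = c M`; `U = ⌈N^δ⌉₊ ≤ 2 N^δ`, `L = log N`, `K = ⌈8 log L⌉₊`.
`lower_fin`; `1 ≤ mass` (`one_le_mass`), `card_slots_le`, `d ≤ exp (j sqrt L)`.  Eventually: `L^4 ≥ 4 L`, `L^4 > c M`;
`tail z K ≤ exp (-8 log L + 3 log L + 3 C) = exp (3 C) L^(-5)` (`lamz_le`); `#D ≤ exp (j sqrt L) ≤ N^δ`,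
`(K + 1) z^K ≤ N^δ` (`z^K ≤ exp (K sqrt L)`, `(8 log L + 2) (sqrt L + 1) ≤ δ L`); all terms with `#D` are at most
`C' L² N^(1 - δ₀ + 4 δ)` or `C' L² N^(7 δ)`; each of the error terms is at most `N mass / (16 c M)`.
State the eventual inequalities as separate lemmas in `L` (`Real.tendsto_log_atTop`, `isLittleO_log_rpow_atTop`,
`tendsto_rpow_mul_exp_neg_mul_atTop_nhds_zero`), with `N = exp L`. -/

namespace Vale.Agent.P016

open Finset Filter Vale.Agent.P005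
open scoped ArithmeticFunction.vonMangoldt

private theorem lowB_ev {δ : ℝ} (hδ : 0 < δ) (T : ℝ) : ∀ᶠ N : ℕ in atTop,
    T ≤ δ * Real.sqrt (Real.log N) ∧ T ≤ Real.sqrt (Real.log N) ∧
      8 * Real.log (Real.log N) + 1 ≤ δ * Real.sqrt (Real.log N) := by
  have hlog : Tendsto (fun N : ℕ => Real.log N) atTop atTop :=
    Real.tendsto_log_atTop.comp tendsto_natCast_atTop_atTop
  have hs : Tendsto (fun N : ℕ => Real.sqrt (Real.log N)) atTop atTop :=
    Real.tendsto_sqrt_atTop.comp hlog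
  filter_upwards [(hs.const_mul_atTop hδ).eventually_ge_atTop T, hs.eventually_ge_atTop T,
    (hs.const_mul_atTop hδ).eventually_ge_atTop 2,
    hs.eventually (Real.isLittleO_log_id_atTop.bound (show 0 < δ / 32 by positivity)),
    hlog.eventually_ge_atTop 0] with N h1 h2 h3 h4 h5
  refine ⟨h1, h2, ?_⟩
  rw [id, Real.norm_eq_abs, Real.norm_eq_abs, abs_of_nonneg (Real.sqrt_nonneg _),
    Real.log_sqrt h5] at h4
  have := le_abs_self (Real.log (Real.log N) / 2)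
  linarith

private theorem lowB_poly {y X D C z L U K Z M : ℝ} (hy : 1 ≤ y) (hX : y ^ 5 ≤ X)
    (hD : D ≤ y) (hC : C ≤ y) (hz : z ≤ y) (hL : L + 1 ≤ y) (hU : U ≤ 2 * y) (hK : K ≤ y)
    (hZ : Z ≤ y) (hM : M ≤ y) (hC0 : 0 ≤ C) (hz0 : 0 ≤ z) (hL0 : 0 ≤ L) (hU0 : 0 ≤ U)
    (hK0 : 0 ≤ K) (hZ0 : 0 ≤ Z) (hM0 : 0 ≤ M) :
    D * (C * X + z * L + 2 * U * L ^ 2 + 4 * L * U ^ 2 * K * Z *
      (C * X + U ^ 2 * Z * M * (L + 1) + 2)) ≤ 118 * y ^ 7 * X := by
  have hL1 : L ≤ y := by linarith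
  have hy0 : 0 ≤ y := by linarith
  have h1 : 1 ≤ X := (one_le_pow₀ hy).trans hX
  have h0 : 0 ≤ X := by linarith
  have h2 : X ≤ y * X := le_mul_of_one_le_left h0 hy
  have h3 : y * X ≤ y ^ 6 * X := mul_le_mul_of_nonneg_right (le_self_pow₀ hy (by norm_num)) h0
  have h4 : y ^ 2 ≤ y ^ 5 := pow_le_pow_right₀ hy (by norm_num)
  have h5 : y ^ 3 ≤ y ^ 5 := pow_le_pow_right₀ hy (by norm_num)
  have h6 : y ^ 5 * (y * X + 4 * y ^ 5 + 2) ≤ y ^ 5 * (7 * (y * X)) :=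
    mul_le_mul_of_nonneg_left (by linarith) (by positivity)
  calc _ ≤ y * (y * X + y * y + 2 * (2 * y) * y ^ 2 + 4 * y * (2 * y) ^ 2 * y * y *
        (y * X + (2 * y) ^ 2 * y * y * y + 2)) := by gcongr
    _ = y * (y * X + y ^ 2 + 4 * y ^ 3 + 16 * (y ^ 5 * (y * X + 4 * y ^ 5 + 2))) := by ring
    _ ≤ y * (118 * (y ^ 6 * X)) := mul_le_mul_of_nonneg_left (by linarith) hy0
    _ = _ := by ring

private theorem lowB_real {N L s q E z t m : ℝ} (hN0 : 0 < N) (hss : s * s = L) (hq : 1 ≤ q)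
    (hqE : q ≤ q * E) (e2 : 2048 * (q * E) ≤ s) (hz2 : L ^ 4 ≤ z) (htl : t * L ^ 5 ≤ E) (hm : 1 ≤ m) {R : ℝ}
    (hR : R ≤ N / (16 * q)) :
    N / (4 * q) ≤ N * m / (2 * q) - m * (8 * N * L ^ 2 * (1 + L) / z + 32 * N * L * (1 + L) * t) -
      R - 2 * (q * L ^ 2 * (N / L ^ 3)) := by
  have hs1 : 2048 ≤ s := by linarith
  have hsL : 2048 * s ≤ L := by nlinarith
  have hLp : 0 < L := by linarith
  have hz0 : 0 < z := lt_of_lt_of_le (by positivity) hz2
  have hq0 : 0 < q := by linarith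
  have a1 : 8 * N * L ^ 2 * (1 + L) / z ≤ N / (16 * q) := by
    rw [div_le_div_iff₀ hz0 (by positivity)]
    calc 8 * N * L ^ 2 * (1 + L) * (16 * q) = N * L ^ 2 * ((1 + L) * (128 * q)) := by ring
      _ ≤ N * L ^ 2 * ((2 * L) * (L / 2)) := by gcongr <;> linarith
      _ = N * L ^ 4 := by ring
      _ ≤ _ := by gcongr
  have a2 : 32 * N * L * (1 + L) * t ≤ N / (16 * q) := by
    rw [le_div_iff₀ (by positivity)]
    refine le_of_mul_le_mul_right ?_ (show 0 < L ^ 5 by positivity)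
    calc 32 * N * L * (1 + L) * t * (16 * q) * L ^ 5
        = N * L * (1 + L) * (512 * (q * (t * L ^ 5))) := by ring
      _ ≤ N * L * (1 + L) * (512 * (q * E)) := by gcongr
      _ ≤ N * L * (2 * L) * (L / 2) := by gcongr <;> linarith
      _ = N * L ^ 3 := by ring
      _ ≤ _ := mul_le_mul_of_nonneg_left (pow_le_pow_right₀ (by linarith) (by norm_num)) hN0.le
  have a5 : 2 * (q * L ^ 2 * (N / L ^ 3)) ≤ N / (16 * q) := by
    rw [show 2 * (q * L ^ 2 * (N / L ^ 3)) = N * (2 * q) / L by field_simp,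
      div_le_div_iff₀ hLp (by positivity), mul_assoc, ← hss]
    gcongr <;> linarith
  have a6 : N / (16 * q) ≤ m * (N / (16 * q)) := le_mul_of_one_le_left (by positivity) hm
  have a7 := mul_le_mul_of_nonneg_left (add_le_add a1 a2) (zero_le_one.trans hm)
  rw [show N / (4 * q) = 4 * (N / (16 * q)) by ring,
    show N * m / (2 * q) = 8 * (m * (N / (16 * q))) by ring]
  linarith

private theorem lowB_aux {s L : ℝ} (hs : 4 ≤ s) (hss : s * s = L) :
    4 * s ≤ L ∧ 4 * L ≤ L ^ 4 ∧ L + 1 ≤ Real.exp (2 * s) := by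
  have hsL : 4 * s ≤ L := by nlinarith
  refine ⟨hsL, ?_, ?_⟩
  · have : L * L ≤ L ^ 4 := by
      rw [← sq]
      exact pow_le_pow_right₀ (by linarith) (by norm_num)
    nlinarith
  · rw [two_mul, Real.exp_add]
    nlinarith [Real.add_one_le_exp s]

theorem lower {δ₀ C : ℝ} (hδ0 : 0 < δ₀) (hδ : δ₀ ≤ 1 / 4) (hPA : P013.PA δ₀ C) (hII : TypeIIz')
    {c b M : ℕ} (h : ClsA c b M) : ∃ j : ℕ, ∀ᶠ N : ℕ in atTop,
      ∃ (P : Fin j → Finset ℕ) (z : ℕ), Slots N 4 1 P ∧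
        N / (4 * (c * M) : ℝ) ≤ SS N z c b M P fun m => Λ m := by
  obtain ⟨hc, hM⟩ := dens_pos h
  have hC : 0 ≤ C := by
    simpa using (abs_nonneg _).trans (hPA 1 0 1 le_rfl (by simp) (by simp))
  have hδ1 : 0 < δ₀ / 16 := by positivity
  obtain ⟨j, hj⟩ := hII (δ₀ / 16) hδ1 3 4 1 (c * M) (Nat.mul_pos hc hM)
  obtain ⟨C', hC', hlam⟩ := lamz_le
  have hc' : (1 : ℝ) ≤ c := by exact_mod_cast hc
  have hM' : (1 : ℝ) ≤ M := by exact_mod_cast hM
  have hq : (1 : ℝ) ≤ c * M := one_le_mul_of_one_le_of_one_le hc' hM'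
  have hMq : (M : ℝ) ≤ c * M := le_mul_of_one_le_left (by positivity) hc'
  have hE : 1 ≤ Real.exp (3 * C') := Real.one_le_exp (by positivity)
  refine ⟨j, ?_⟩
  filter_upwards [hj, lowB_ev hδ1 (j + C + 2048 * (c * M) * Real.exp (3 * C')),
    eventually_ge_atTop 3] with N ⟨P, z, hP, hz1, hz2, hz3, hT⟩ ⟨e1, e2, e3⟩ hN
  refine ⟨P, z, hP, ?_⟩
  have hN0 : (0 : ℝ) < N := by exact_mod_cast (by omega : 0 < N)
  have hN1 : (1 : ℝ) ≤ N := by exact_mod_cast (by omega : 1 ≤ N)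
  have hL0 : 0 ≤ Real.log N := Real.log_natCast_nonneg N
  have hss : Real.sqrt (Real.log N) * Real.sqrt (Real.log N) = Real.log N := Real.mul_self_sqrt hL0
  have hy : ∀ a : ℝ, a ≤ δ₀ / 16 * Real.sqrt (Real.log N) →
      Real.exp (a * Real.sqrt (Real.log N)) ≤ (N : ℝ) ^ (δ₀ / 16) := fun a ha => by
    rw [Real.rpow_def_of_pos hN0, Real.exp_le_exp]
    refine (mul_le_mul_of_nonneg_right ha (Real.sqrt_nonneg _)).trans (le_of_eq ?_)
    rw [mul_assoc, hss, mul_comm]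
  have k3 : (N : ℝ) ^ (1 - δ₀) * ((N : ℝ) ^ (δ₀ / 16)) ^ 16 = N := by
    rw [← Real.rpow_natCast, ← Real.rpow_mul hN0.le, ← Real.rpow_add hN0,
      show 1 - δ₀ + δ₀ / 16 * (16 : ℕ) = 1 by push_cast; ring, Real.rpow_one]
  have k4 : ((N : ℝ) ^ (δ₀ / 16)) ^ 5 ≤ (N : ℝ) ^ (1 - δ₀) := by
    rw [← Real.rpow_natCast, ← Real.rpow_mul hN0.le]
    exact Real.rpow_le_rpow_of_exponent_le hN1 (by push_cast; linarith)
  have hU1 : 1 ≤ ⌈(N : ℝ) ^ (δ₀ / 16)⌉₊ := Nat.one_le_ceil_iff.2 (by positivity)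
  have hy1 : 1 ≤ (N : ℝ) ^ (δ₀ / 16) := Real.one_le_rpow hN1 hδ1.le
  have hU2 : (⌈(N : ℝ) ^ (δ₀ / 16)⌉₊ : ℝ) ≤ 2 * (N : ℝ) ^ (δ₀ / 16) := by
    linarith [Nat.ceil_lt_add_one (show 0 ≤ (N : ℝ) ^ (δ₀ / 16) by positivity)]
  have hj0 : (0 : ℝ) ≤ j := Nat.cast_nonneg j
  have hqE : (c * M : ℝ) ≤ c * M * Real.exp (3 * C') := le_mul_of_one_le_right (by positivity) hE
  rw [mul_assoc (2048 : ℝ)] at e1 e2
  have hs1 : 2048 ≤ Real.sqrt (Real.log N) := by linarith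
  obtain ⟨hsL, hL4, hL5⟩ := lowB_aux (by linarith) hss
  have hL1 : 1 ≤ Real.log N := by linarith
  have hD := (card_slots_le hP).trans (hy j (by linarith))
  have hd : ∀ π ∈ Fintype.piFinset P, ((∏ i, π i : ℕ) : ℝ) ≤ (N : ℝ) ^ (δ₀ / 16) := fun π hπ => by
    refine le_trans ?_ (hy j (by linarith))
    rw [Nat.cast_prod, Real.exp_nat_mul]
    exact (prod_le_prod (fun i _ => Nat.cast_nonneg _) fun i _ =>
      (hP.1 i _ (Fintype.mem_piFinset.1 hπ i)).2.2).trans (le_of_eq (by simp))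
  have hzK : ∀ K : ℕ, (z : ℝ) ^ K ≤ Real.exp (K * Real.sqrt (Real.log N)) := fun K => by
    rw [Real.exp_nat_mul]
    exact pow_le_pow_left₀ (Nat.cast_nonneg z) hz1 K
  have htl : tail z ⌈8 * Real.log (Real.log N)⌉₊ * Real.log N ^ 5 ≤ Real.exp (3 * C') := by
    have h1 := hlam (Real.log N) z hL1 hz1
    have h2 := Nat.le_ceil (8 * Real.log (Real.log N))
    rw [tail, ← Real.exp_log (show 0 < Real.log N ^ 5 by positivity), ← Real.exp_add,
      Real.exp_le_exp, Real.log_pow]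
    push_cast
    linarith
  have hK : (⌈8 * Real.log (Real.log N)⌉₊ : ℝ) ≤ δ₀ / 16 * Real.sqrt (Real.log N) := by
    linarith [Nat.ceil_lt_add_one
      (show 0 ≤ 8 * Real.log (Real.log N) by have := Real.log_nonneg hL1; positivity)]
  have hm := one_le_mass le_rfl hP
  have hfin := fun a1 a2 a3 a4 a5 => lower_fin (K := ⌈8 * Real.log (Real.log N)⌉₊) (b := b) hδ hPA h
    hN a1 a2 a3 a4 hT (Nat.le_ceil _) hU1 a5
  have y1 := hy 1 (by linarith)
  have y2 := hy 2 (by linarith)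
  have y3 := hy _ hK
  have y4 := (hzK _).trans y3
  have hP1 := hP.1
  have ht0 : 0 ≤ tail z ⌈8 * Real.log (Real.log N)⌉₊ := (Real.exp_pos _).le
  have hX0 : 0 < (N : ℝ) ^ (1 - δ₀) := by positivity
  clear hy hzK e1 e3 hK hlam hj
  generalize tail z ⌈8 * Real.log (Real.log N)⌉₊ = t at *
  generalize ⌈8 * Real.log (Real.log N)⌉₊ = K at *
  generalize ⌈(N : ℝ) ^ (δ₀ / 16)⌉₊ = U at *
  generalize (N : ℝ) ^ (1 - δ₀) = X at *
  generalize (N : ℝ) ^ (δ₀ / 16) = y at *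
  generalize mass (Fintype.piFinset P) = m at *
  generalize Real.exp (3 * C') = E at *
  generalize Real.sqrt (Real.log N) = s at *
  generalize Real.log N = L at *
  rw [one_mul] at y1
  have hsy : s ≤ y := by linarith [Real.add_one_le_exp s]
  have hLy : L + 1 ≤ y := hL5.trans y2
  have hKy : (K : ℝ) + 1 ≤ y := (Real.add_one_le_exp _).trans ((Real.exp_le_exp.2
    (le_mul_of_one_le_right (Nat.cast_nonneg K) (by linarith))).trans y3)
  have hyN : y ^ 3 ≤ N := by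
    rw [← k3]
    exact (pow_le_pow_right₀ hy1 (by norm_num)).trans
      (le_mul_of_one_le_left (by positivity) ((one_le_pow₀ hy1).trans k4))
  have hy2 : 4 * y ^ 2 ≤ N := by
    refine le_trans ?_ hyN
    rw [pow_succ' y 2]
    exact mul_le_mul_of_nonneg_right (by linarith) (by positivity)
  refine le_trans ?_ (hfin (by linarith) (fun i p hp => ⟨(hP1 i p hp).1, ?_, hz3 i p hp⟩) ?_
    (fun π hπ => ?_) ?_)
  · refine lowB_real hN0 hss hq hqE (by linarith) hz2 htl hm ((lowB_poly hy1 k4 hD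
      (show C ≤ y by linarith) (hz1.trans y1) hLy hU2 hKy y4
      (show (M : ℝ) ≤ y by linarith) hC (Nat.cast_nonneg z) hL0 (Nat.cast_nonneg U) (by positivity)
      (by positivity) (by positivity)).trans ?_)
    rw [le_div_iff₀ (by positivity), ← k3]
    calc 118 * y ^ 7 * X * (16 * (c * M)) = X * (y ^ 7 * (1888 * (c * M))) := by ring
      _ ≤ X * (y ^ 7 * y) := by gcongr; linarith
      _ ≤ _ := by
        rw [← pow_succ]
        exact mul_le_mul_of_nonneg_left (pow_le_pow_right₀ hy1 (by norm_num)) hX0.le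
  · exact_mod_cast (show ((c * M : ℕ) : ℝ) < p by
      push_cast
      linarith [(hP1 i p hp).2.1])
  · exact_mod_cast (show ((c * M : ℕ) : ℝ) ≤ z by
      push_cast
      linarith)
  · refine (Nat.cast_le (α := ℝ)).1 ?_
    rw [Nat.cast_mul, Nat.cast_mul c]
    calc _ ≤ y * y := mul_le_mul (hd π hπ) (by linarith) (by positivity) (by linarith)
      _ ≤ _ := by linarith [sq_nonneg y]
  · refine (Nat.cast_le (α := ℝ)).1 ?_
    rw [Nat.cast_pow]
    calc _ ≤ (2 * y) ^ 2 := by gcongr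
      _ ≤ _ := by linarith

end Vale.Agent.P016
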