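import Vale.Agent.P016.Cls
import Vale.Agent.P016.LowB
import Vale.Agent.P016.Except

/-! P016 Final: the reduction (TASK).
PLAN.  `2 ≤ |a|` since `a ≠ -1` and `0, 1` are squares.  If the set is finite, `#(good a N) ≤ G` for all `N`.  `exists_cls`, `lower`, `except`,
`KB`: eventually `q₀ ≤ L^4`; `∑_{q ≥ Y} 1/q² ≤ 2/Y` for real `Y ≥ 1` (`sum_Ioo_inv_sq_le`), so the sum over `q` is at most
`C (2 N / L^4 + exp ((k+1) sqrt L) N^(1-η))`; `card_slots_le`.  Each term is eventually at most `N / (32 c M)`; contradiction.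
State the eventual inequalities as separate lemmas (`exp (x sqrt L) L^m ≤ ε exp (η L)` eventually in `L`, `N = exp L`). -/

namespace Vale.Agent.P016

open Finset Filter Vale.Agent.P005

private theorem final_inv {Y : ℝ} (hY : 0 < Y) (S : Finset ℕ) (hS : ∀ q ∈ S, Y ≤ q) :
    ∑ q ∈ S, ((q : ℝ) ^ 2)⁻¹ ≤ 2 / Y := by
  have h1 : 1 ≤ ⌈Y⌉₊ := Nat.one_le_ceil_iff.2 hY
  refine (sum_le_sum_of_subset_of_nonneg (t := Ioo (⌈Y⌉₊ - 1) (S.sup id + 1)) (fun q hq => ?_)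
    fun _ _ _ => by positivity).trans ((sum_Ioo_inv_sq_le _ _).trans ?_)
  · have h2 : ⌈Y⌉₊ ≤ q := Nat.ceil_le.2 (hS q hq)
    have h3 : q ≤ S.sup id := le_sup (f := id) hq
    exact mem_Ioo.2 ⟨by omega, by omega⟩
  · rw [Nat.cast_sub h1, Nat.cast_one, sub_add_cancel]
    exact div_le_div_of_nonneg_left zero_le_two hY (Nat.le_ceil Y)

private theorem final_sum {f : ℕ → ℝ} {C N Y e X : ℝ} {k : ℕ} (hY : 0 < Y) (hC : 0 ≤ C)
    (hN : 0 ≤ N) (he : 0 ≤ e) (hX : 0 ≤ X) (p : ℕ → Prop) [DecidablePred p]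
    (hp : ∀ q, p q → Y ≤ q ∧ f q ≤ C * (N / (q : ℝ) ^ 2 + (q : ℝ) ^ k * X)) :
    ∑ q ∈ (Icc 1 ⌊e⌋₊).filter p, f q ≤ C * (N * (2 / Y) + e ^ (k + 1) * X) := by
  refine (sum_le_sum fun q hq => (hp q (mem_filter.1 hq).2).2).trans ?_
  rw [← mul_sum, sum_add_distrib]
  refine mul_le_mul_of_nonneg_left (add_le_add ?_ ?_) hC
  · simp only [div_eq_mul_inv N]
    rw [← mul_sum]
    exact mul_le_mul_of_nonneg_left (final_inv hY _ fun q hq => (hp q (mem_filter.1 hq).2).1) hN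
  · refine (sum_le_card_nsmul _ _ (e ^ k * X) fun q hq => ?_).trans ?_
    · have h1 : (q : ℝ) ≤ e := (Nat.cast_le.2 (mem_Icc.1 (mem_filter.1 hq).1).2).trans
        (Nat.floor_le he)
      gcongr
    · rw [nsmul_eq_mul, pow_succ', mul_assoc]
      refine mul_le_mul_of_nonneg_right (le_trans (Nat.cast_le.2 ((card_filter_le _ _).trans
        (by simp))) (Nat.floor_le he)) (by positivity)

private theorem final_real {N L e y X r J G g C A D S q : ℝ} {j k : ℕ} (hN : 0 < N) (hq : 0 < q)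
    (hL : 1 ≤ L) (hLe : L ≤ e ^ 2) (hy : 1 ≤ y) (hX : X ≤ y) (hr : r ≤ y)
    (hX0 : 0 ≤ X) (hr0 : 0 ≤ r) (hJ : 0 ≤ J) (hg : g ≤ G) (hG : 0 ≤ G) (hC : 0 ≤ C) (hA : 0 ≤ A)
    (hD : D ≤ e ^ j) (h1 : J * G ≤ e) (h2 : J * C ≤ e) (h3 : 4 ≤ e) (h4 : 4 * A ≤ e)
    (h5 : 64 * (J * C * q) ≤ L) (hS : S ≤ C * (N * (2 / L ^ 4) + e ^ (k + 1) * X))
    (h6 : e ^ (2 * j + k + 7) * y ≤ 1 / (32 * q) * N) :
    J * L ^ 2 * (g + S) + D * L ^ 2 * (4 * r * L + 4 * A * e ^ j) < N / (4 * q) := by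
  have he : 1 ≤ e := by linarith
  have hw : ∀ n, n ≤ 2 * j + k + 7 → ∀ x, 0 ≤ x → x ≤ y → e ^ n * x ≤ 1 / (32 * q) * N :=
    fun n hn x h0 hx => le_trans (mul_le_mul (pow_le_pow_right₀ he hn) hx h0 (by positivity)) h6
  have a1 : J * G * L ^ 2 ≤ 1 / (32 * q) * N := by
    refine le_trans ?_ (hw 5 (by omega) 1 zero_le_one hy)
    calc _ ≤ e * (e ^ 2) ^ 2 := by gcongr
      _ = _ := by ring
  have a2 : J * C * L ^ 2 * (N * (2 / L ^ 4)) ≤ 1 / (32 * q) * N := by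
    rw [show J * C * L ^ 2 * (N * (2 / L ^ 4)) = 2 * (J * C) / L ^ 2 * N by field_simp]
    refine mul_le_mul_of_nonneg_right ?_ hN.le
    rw [div_le_div_iff₀ (by positivity) (by positivity)]
    linarith [le_self_pow₀ hL two_ne_zero]
  have a3 : J * C * L ^ 2 * (e ^ (k + 1) * X) ≤ 1 / (32 * q) * N := by
    refine le_trans ?_ (hw (k + 6) (by omega) X hX0 hX)
    calc _ ≤ e * (e ^ 2) ^ 2 * (e ^ (k + 1) * X) := by gcongr
      _ = _ := by ring
  have a4 : e ^ j * L ^ 2 * (4 * r * L) ≤ 1 / (32 * q) * N := by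
    refine le_trans ?_ (hw (j + 7) (by omega) r hr0 hr)
    calc _ ≤ e ^ j * (e ^ 2) ^ 2 * (e * r * e ^ 2) := by gcongr
      _ = _ := by ring
  have a5 : e ^ j * L ^ 2 * (4 * A * e ^ j) ≤ 1 / (32 * q) * N := by
    refine le_trans ?_ (hw (2 * j + 5) (by omega) 1 zero_le_one hy)
    calc _ ≤ e ^ j * (e ^ 2) ^ 2 * (e * e ^ j) := by gcongr
      _ = _ := by ring
  have a6 : 0 < 1 / (32 * q) * N := by positivity
  calc _ ≤ J * L ^ 2 * (G + C * (N * (2 / L ^ 4) + e ^ (k + 1) * X)) +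
        e ^ j * L ^ 2 * (4 * r * L + 4 * A * e ^ j) := by gcongr
    _ = J * G * L ^ 2 + J * C * L ^ 2 * (N * (2 / L ^ 4)) + J * C * L ^ 2 * (e ^ (k + 1) * X) +
        e ^ j * L ^ 2 * (4 * r * L) + e ^ j * L ^ 2 * (4 * A * e ^ j) := by ring
    _ < 8 * (1 / (32 * q) * N) := by linarith
    _ = _ := by ring

theorem artin_of {δ₀ C : ℝ} (hδ0 : 0 < δ₀) (hδ : δ₀ ≤ 1 / 4) (hPA : P013.PA δ₀ C)
    (hII : TypeIIz') (hKB : KB) : Artin := by
  classical
  intro a h1 h2 hfin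
  have ha : 2 ≤ |a| := by
    have h3 : a ≠ 0 := fun h => h2 ⟨0, by simp [h]⟩
    have h4 : a ≠ 1 := fun h => h2 ⟨1, by simp [h]⟩
    rcases abs_cases a with h | h <;> omega
  obtain ⟨c, b, M, hA, hB⟩ := exists_cls h2
  obtain ⟨j, hj⟩ := lower hδ0 hδ hPA hII hA
  obtain ⟨η, C', k, q₀, hη, hC', hbad⟩ := hKB a ha
  obtain ⟨hc, hM⟩ := dens_pos hA
  have hq : (0 : ℝ) < c * M := by positivity
  have hη' : 0 < min η (1 / 2) := lt_min hη (by norm_num)
  have hs : Tendsto (fun N : ℕ => Real.sqrt (Real.log N)) atTop atTop :=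
    Real.tendsto_sqrt_atTop.comp (Real.tendsto_log_atTop.comp tendsto_natCast_atTop_atTop)
  obtain ⟨N, ⟨P, z, hP, hlow⟩, e1, e2, e3, e4, e5, e6, e7, hN⟩ := (hj.and ((var_small hη'
    ((2 * j + k + 7 : ℕ) : ℝ) (1 / (32 * (c * M))) (by positivity)).and
    ((hs.eventually_ge_atTop (((j : ℝ) + 1) ^ j * (hfin.toFinset.card : ℝ))).and
    ((hs.eventually_ge_atTop (((j : ℝ) + 1) ^ j * C')).and ((hs.eventually_ge_atTop 4).and
    ((hs.eventually_ge_atTop (4 * ((|a| : ℤ) : ℝ))).and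
    ((hs.eventually_ge_atTop (64 * (((j : ℝ) + 1) ^ j * C' * (c * M)))).and
    ((hs.eventually_ge_atTop q₀).and (eventually_ge_atTop 3))))))))).exists
  have hN0 : (0 : ℝ) < N := by exact_mod_cast (by omega : 0 < N)
  have hN1 : (1 : ℝ) ≤ N := by exact_mod_cast (by omega : 1 ≤ N)
  have hss := Real.mul_self_sqrt (Real.log_natCast_nonneg N)
  have hse := Real.add_one_le_exp (Real.sqrt (Real.log N))
  have hsL : Real.sqrt (Real.log N) ≤ Real.log N :=
    (le_mul_of_one_le_left (by linarith) (by linarith)).trans hss.le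
  have hL : 1 ≤ Real.log N := by linarith
  have hD := card_slots_le hP
  have hex := hlow.trans (except ha hN hA hB hP)
  rw [Real.exp_nat_mul] at hD hex e1
  refine absurd hex (not_le.2 (final_real (G := hfin.toFinset.card) hN0 hq hL ?_
    (Real.one_le_rpow hN1 (by linarith [min_le_right η (1 / 2)]))
    (Real.rpow_le_rpow_of_exponent_le hN1 (sub_le_sub_left (min_le_left _ _) 1)) ?_
    (by positivity) (Real.sqrt_nonneg _) (by positivity) (Nat.cast_le.2 (card_le_card fun p hp => ?_))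
    (Nat.cast_nonneg _) hC' (by exact_mod_cast abs_nonneg a) hD (by linarith) (by linarith)
    (by linarith) (by linarith) (by linarith) (final_sum (by positivity) hC' hN0.le
      (Real.exp_pos _).le (by positivity) _ fun q hq => ⟨hq.2, hbad q N hq.1 ?_ (by omega)⟩) e1))
  · rw [sq]
    exact hss.symm.le.trans (mul_self_le_mul_self (Real.sqrt_nonneg _) (by linarith))
  · rw [Real.sqrt_eq_rpow]
    exact Real.rpow_le_rpow_of_exponent_le hN1 (by linarith [min_le_right η (1 / 2)])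
  · exact hfin.mem_toFinset.2 (mem_filter.1 hp).2
  · exact Nat.cast_le.1 (e7.trans (hsL.trans ((le_self_pow₀ hL (by norm_num)).trans hq.2)))

end Vale.Agent.P016
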