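import Mathlib
import Vale.Agent.P319.N.PntAlg

/-! # P016: the Kummer field `ℚ(ζ_q, a^{1/q})` -/

namespace Vale.Agent.P016

open NumberField Ideal Polynomial Module Vale.Agent.P319

theorem kum_pow {r q : ℕ} (hr : r.Prime) (hq : q ∣ r - 1) (a : ZMod r)
    (ha : a ^ ((r - 1) / q) = 1) : a ≠ 0 ∧ ∃ x : ZMod r, x ^ q = a := by
  have : Fact r.Prime := ⟨hr⟩
  obtain ⟨m, hm⟩ := hq
  have h1 : 0 < q * m := by have := hr.two_le; omega
  have hm0 : 0 < m := Nat.pos_of_mul_pos_left h1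
  rw [hm, Nat.mul_div_cancel_left _ (Nat.pos_of_mul_pos_right h1)] at ha
  have h0 : a ≠ 0 := by
    rintro rfl
    rw [zero_pow hm0.ne'] at ha
    exact zero_ne_one ha
  refine ⟨h0, ?_⟩
  obtain ⟨g, hg⟩ := IsCyclic.exists_monoid_generator (α := (ZMod r)ˣ)
  obtain ⟨j, hj⟩ := hg (Units.mk0 a h0)
  have h2 : orderOf g = q * m := by
    rw [orderOf_eq_card_of_forall_mem_powers hg, Nat.card_eq_fintype_card, ZMod.card_units, hm]
  have h3 : g ^ (j * m) = 1 := by
    rw [pow_mul, show g ^ j = _ from hj]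
    exact Units.ext ha
  obtain ⟨i, rfl⟩ := Nat.dvd_of_mul_dvd_mul_right hm0 (h2 ▸ orderOf_dvd_of_pow_eq_one h3)
  refine ⟨((g ^ i : (ZMod r)ˣ) : ZMod r), ?_⟩
  rw [← Units.val_pow_eq_pow_val, ← pow_mul, mul_comm, show g ^ (q * i) = _ from hj, Units.val_mk0]

theorem kum_cyc {K : Type} [Field K] [NumberField K] {m : ℕ} [NeZero m]
    [IsCyclotomicExtension {m} ℚ K] {r : ℕ} (hr : r.Prime) (hm : ¬r ∣ m) (h : m ∣ r - 1) :
    finrank ℚ K ≤ pntA K r := by
  have : Fact r.Prime := ⟨hr⟩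
  have : IsGalois ℚ K := IsCyclotomicExtension.isGalois {m} ℚ K
  have h1 : orderOf (r : ZMod m) = 1 := by
    rw [orderOf_eq_one_iff, ← Nat.cast_one (R := ZMod m), eq_comm, ZMod.natCast_eq_natCast_iff]
    exact (Nat.modEq_iff_dvd' hr.one_lt.le).2 h
  have h2 := ncard_primesOver_mul_ramificationIdxIn_mul_inertiaDegIn (span {(r : ℤ)}) (𝓞 K)
    Gal(K/ℚ)
  rw [IsCyclotomicExtension.Rat.ramificationIdxIn_eq_of_not_dvd r K hm,
    IsCyclotomicExtension.Rat.inertiaDegIn_eq_of_not_dvd r K hm, h1, mul_one, mul_one,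
    IsGalois.card_aut_eq_finrank] at h2
  rw [← h2, ← card_pntS, ← Set.ncard_coe_finset]
  refine Set.ncard_le_ncard (fun P ⟨p1, p2⟩ => ?_) (Finset.finite_toSet _)
  rw [Finset.mem_coe, mem_pntS, ← pow_inertiaDeg r P,
    IsCyclotomicExtension.Rat.inertiaDeg_eq_of_not_dvd r K P hm, h1, pow_one]

theorem kum_not_pow {K : Type} [Field K] [NumberField K] (a : ℤ) (ha : 2 ≤ |a|) (q : ℕ)
    (hq : q.Prime) (h : |a| < q) (hK : finrank ℚ K = q - 1) (x : K) : x ^ q ≠ a := by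
  intro hx
  have h0 : (a : ℚ) ≠ 0 := by
    rintro h0
    obtain rfl : a = 0 := by exact_mod_cast h0
    simp at ha
  have h1 : Algebra.norm ℚ x ^ q = (a : ℚ) ^ (q - 1) := by
    rw [← map_pow, hx, ← map_intCast (algebraMap ℚ K), Algebra.norm_algebraMap, hK]
  have h2 : ((a : ℚ) / Algebra.norm ℚ x) ^ q = a := by
    rw [div_pow, h1, div_eq_iff (pow_ne_zero _ h0), ← pow_succ', Nat.sub_add_cancel hq.pos]
  have hi : IsIntegral ℤ ((a : ℚ) / Algebra.norm ℚ x) := IsIntegral.of_pow hq.pos (by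
    rw [h2]; exact isIntegral_algebraMap (R := ℤ) (A := ℚ) (x := a))
  obtain ⟨z, hz⟩ := IsIntegrallyClosed.isIntegral_iff.1 hi
  rw [← hz, eq_intCast] at h2
  obtain rfl : z ^ q = a := by exact_mod_cast h2
  rw [abs_pow] at ha h
  have h3 : 2 ≤ |z| := by
    by_contra h3
    have := pow_le_one₀ (n := q) (abs_nonneg z) (by omega)
    omega
  have h4 := pow_le_pow_left₀ zero_le_two h3 q
  have h5 : (q : ℤ) < 2 ^ q := by exact_mod_cast Nat.lt_two_pow_self
  omega

theorem exists_kummer (a : ℤ) (ha : 2 ≤ |a|) (q : ℕ) (hq : q.Prime) (h : |a| < q) :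
    ∃ (L : Type) (_ : Field L) (_ : NumberField L), finrank ℚ L = q * (q - 1) ∧
      (∃ io : 𝓞 L, ∀ φ : L →+* ℂ, (φ io).im ≠ 0) ∧
      |(discr L : ℝ)| ≤ ((finrank ℚ L : ℝ) * |(a : ℝ)|) ^ (2 * finrank ℚ L) ∧
      ∀ r : ℕ, r.Prime → q ∣ r - 1 → (a : ZMod r) ^ ((r - 1) / q) = 1 →
        q * (q - 1) ≤ Nat.card {P : Ideal (𝓞 L) // P.IsPrime ∧ absNorm P = r} := by
  classical
  have : NeZero q := ⟨hq.ne_zero⟩
  obtain ⟨K, _, _, _⟩ := pnt_exK q
  have hζ := IsCyclotomicExtension.zeta_spec q ℚ K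
  set ζ := IsCyclotomicExtension.zeta q ℚ K
  have hK : finrank ℚ K = q - 1 := by
    rw [IsCyclotomicExtension.finrank K (cyclotomic.irreducible_rat hq.pos), Nat.totient_prime hq]
  have H : Irreducible (X ^ q - C (a : K)) :=
    X_pow_sub_C_irreducible_of_prime hq (kum_not_pow a ha q hq h hK)
  obtain ⟨L, _, _, _, _, bL, τ, hdim, hα, hτ⟩ := pnt_exL hq (a : K) H hζ
  have hd : finrank K L = q := bL.finrank.trans hdim
  rw [map_intCast] at hα
  set α : L := bL.gen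
  have hαi : IsIntegral ℤ α := IsIntegral.of_pow hq.pos (by
    rw [hα]; exact_mod_cast isIntegral_algebraMap (R := ℤ) (A := L) (x := a))
  have hζi : IsIntegral ℤ ζ := hζ.isIntegral hq.pos
  have hinj := (algebraMap K L).injective
  have hζL := hζ.map_of_injective hinj
  have ha1 : (1 : ℝ) ≤ |(a : ℝ)| := by exact_mod_cast one_le_two.trans ha
  have hζn : ∀ (z : ℂ), z ^ q = 1 → ‖z‖ = 1 := fun z hz =>
    Complex.norm_eq_one_of_pow_eq_one hz hq.ne_zero
  let bK := hζ.powerBasis ℚ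
  have hbK : ∀ i, bK.basis i = ζ ^ (i : ℕ) := fun i => by
    rw [bK.basis_eq_pow, IsPrimitiveRoot.powerBasis_gen]
  have hbL : ∀ i, bL.basis i = α ^ (i : ℕ) := fun i => bL.basis_eq_pow i
  refine ⟨L, inferInstance, inferInstance, ?_, ⟨⟨algebraMap K L ζ, hζi.algebraMap⟩, fun φ h0 => ?_⟩,
    ?_, fun r hr hqr hx => ?_⟩
  · rw [← finrank_mul_finrank ℚ K L, hd, hK, mul_comm]
  · have h1 : IsPrimitiveRoot (φ (algebraMap K L ζ)) q := hζL.map_of_injective φ.injective
    have h2 : φ (algebraMap K L ζ) ^ 2 = 1 := by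
      have h3 := Complex.mul_conj' (φ (algebraMap K L ζ))
      rw [Complex.conj_eq_iff_im.2 (show (φ (algebraMap K L ζ)).im = 0 from h0), hζn _ h1.pow_eq_one] at h3
      simpa [pow_two] using h3
    have := Nat.le_of_dvd two_pos (h1.dvd_of_pow_eq_one 2 h2)
    omega
  · refine pnt_disc (bK.basis.smulTower bL.basis) (fun i => ?_) _ (by positivity) fun i σ => ?_
    · rw [Basis.smulTower_apply, hbK, hbL, Algebra.smul_def]
      exact (hζi.pow _).algebraMap.mul (hαi.pow _)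
    · rw [Basis.smulTower_apply, hbK, hbL, Algebra.smul_def, map_mul, map_pow, map_pow, map_pow,
        norm_mul, norm_pow, norm_pow,
        hζn _ (by rw [← map_pow, hζL.pow_eq_one, map_one]), one_pow, one_mul]
      have h1 : ‖σ α‖ ^ q = |(a : ℝ)| := by
        rw [← norm_pow, ← map_pow, hα, map_intCast, Complex.norm_intCast]
      have h2 : 1 ≤ ‖σ α‖ := by
        rwa [← h1, one_le_pow_iff_of_nonneg (norm_nonneg _) hq.ne_zero] at ha1
      rw [← h1]
      exact pow_le_pow_right₀ h2 (hdim ▸ i.2.2.le)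
  · obtain ⟨h0, x, hx⟩ := kum_pow hr hqr _ hx
    have hrq : r ≠ q := by
      rintro rfl
      have := Nat.le_of_dvd (by have := hr.two_le; omega) hqr
      have := hr.pos
      omega
    obtain ⟨t, rfl⟩ := ZMod.intCast_surjective x
    have ht : (r : ℤ) ∣ t ^ q - a := by
      rw [← ZMod.intCast_zmod_eq_zero_iff_dvd]
      push_cast
      rw [hx, sub_self]
    have h1 := kum_cyc (K := K) hr
      (fun h => hrq ((Nat.prime_dvd_prime_iff_eq hr hq).1 h)) hqr
    have h2 : q * pntA K r ≤ pntA L r := pnt_count r q fun P hP => by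
      refine pnt_split hq hr hrq (by rwa [← ZMod.intCast_zmod_eq_zero_iff_dvd]) hd
        ⟨algebraMap K L ζ, hζi.algebraMap⟩ ⟨α, hαi⟩ ?_ ?_ τ ?_ ?_ t ht P hP
      · exact hζL.of_map_of_injective (f := algebraMap (𝓞 L) L) RingOfIntegers.coe_injective
      · apply RingOfIntegers.ext
        simp only [map_intCast]
        exact hα
      · exact RingOfIntegers.ext hτ
      · exact RingOfIntegers.ext (τ.commutes _)
    rw [hK] at h1
    refine ((Nat.mul_le_mul_left q h1).trans h2).trans (le_of_eq ?_)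
    exact Nat.card_congr (Equiv.subtypeEquivRight fun P =>
      ⟨fun hP => ⟨isPrime_of_irreducible_absNorm (hP ▸ hr), hP⟩, fun hP => hP.2⟩)

end Vale.Agent.P016
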