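import Vale.Agent.P016.Quad
import Vale.Agent.P016.Kum
import Vale.Agent.P319.N.PntCount

/-! P016 KB: the Kummer bound.
PLAN.  `q₀ = |a| + 1`.  `exists_kummer` gives `L` of degree `q (q - 1)`; `Xi0` gives `Z` with `XiF C L Z` and `EtaF L`; `zff_of_quad`
(for a field with `w² + w + 1 = 0` the integer `w` has non-real images, so `Xi0` also gives the continuation there); `pnt_card`:
`#(bad a q N) * q (q - 1) ≤ #{P prime | N P ≤ N} ≤ C' (N + N^(1-η) (log |D| + n))` (the sets `{P | N P = p}` are disjoint),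
`log |D| ≤ 2 n log (n |a|) ≤ 2 n * n |a|`, `n ≤ q²`, `q (q - 1) ≥ q² / 2`; `k = 4`. -/

namespace Vale.Agent.P016

open Finset Filter
open scoped NumberField

theorem kb_io (L : Type) [Field L] [NumberField L] (h : ∃ w : L, w ^ 2 + w + 1 = 0) :
    ∃ io : 𝓞 L, ∀ φ : L →+* ℂ, (φ io).im ≠ 0 := by
  obtain ⟨w, hw⟩ := h
  have hi : IsIntegral ℤ w := IsIntegral.of_pow (n := 3) (by norm_num) (by
    rw [show w ^ 3 = 1 by linear_combination (w - 1) * hw]; exact isIntegral_one)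
  refine ⟨⟨w, hi⟩, fun φ h0 => ?_⟩
  have h1 : (φ w).im = 0 := h0
  have h2 := congrArg (fun z => (φ z).re) hw
  simp only [map_add, map_mul, map_one, map_zero, Complex.add_re, pow_two, Complex.mul_re, h1,
    Complex.one_re, Complex.zero_re] at h2
  nlinarith [sq_nonneg ((φ w).re + 1 / 2)]

theorem kb_count (L : Type) [Field L] [NumberField L] (B : Finset ℕ) (g N : ℕ)
    (hB : ∀ r ∈ B, r ≠ 0 ∧ r ≤ N ∧
      g ≤ Nat.card {P : Ideal (𝓞 L) // P.IsPrime ∧ Ideal.absNorm P = r}) :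
    g * #B ≤ {P : Ideal (𝓞 L) | P.IsPrime ∧ P ≠ ⊥ ∧ (Ideal.absNorm P : ℝ) ≤ N}.ncard := by
  classical
  have hf : {P : Ideal (𝓞 L) | P.IsPrime ∧ P ≠ ⊥ ∧ (Ideal.absNorm P : ℝ) ≤ N}.Finite :=
    (Ideal.finite_setOfPred_absNorm_le N).subset fun P hP => Nat.cast_le.1 hP.2.2
  rw [Set.ncard_eq_toFinset_card _ hf]
  refine le_trans (mul_card_image_le_card_of_maps_to
    (s := hf.toFinset.filter fun P => Ideal.absNorm P ∈ B) (f := fun P => Ideal.absNorm P)
    (fun P hP => (mem_filter.1 hP).2) g fun r hr => ?_) (card_filter_le _ _)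
  obtain ⟨h1, h2, h3⟩ := hB r hr
  refine h3.trans ?_
  rw [← Set.ncard_coe_finset]
  refine Set.ncard_le_ncard (s := {P : Ideal (𝓞 L) | P.IsPrime ∧ Ideal.absNorm P = r})
    (fun P ⟨p1, p2⟩ => ?_) (finite_toSet _)
  simp only [coe_filter, mem_filter, Set.Finite.mem_toFinset, Set.mem_ofPred_eq, p2, hr, and_true]
  exact ⟨p1, fun h => h1 (by rw [← p2, h, Ideal.absNorm_bot]), Nat.cast_le.2 h2⟩

theorem kb_of (h0 : Xi0)
    (hZ : ∀ (L : Type) [Field L] [NumberField L], (∃ w : L, w ^ 2 + w + 1 = 0) → ZFF L) : KB := by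
  obtain ⟨C, hC, h0⟩ := h0
  obtain ⟨C', hC', hc⟩ := P319.pnt_card C hC
  intro a ha
  set A : ℝ := |(a : ℝ)| with hA
  have A2 : 2 ≤ A := by rw [hA]; exact_mod_cast ha
  refine ⟨1 / 8000, C' * (2 * A + 1), 4, a.natAbs + 1, by norm_num, by positivity,
    fun q N hq hq0 hN => ?_⟩
  obtain ⟨L, _, _, hn, hio, hd, hcount⟩ := exists_kummer a ha q hq (by
    rw [Int.abs_eq_natAbs]; exact_mod_cast hq0)
  obtain ⟨⟨Z, z1, z2, z3⟩, hE⟩ := h0 L hio
  have hF : ZFF L := zff_of_quad L hE fun L' _ _ hw => by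
    obtain ⟨⟨Z', y1, y2, -⟩, -⟩ := h0 L' (kb_io L' hw)
    exact ⟨hZ L' hw, Z', y1, y2⟩
  have N1 : (1 : ℝ) ≤ N := by exact_mod_cast hN
  have h1 := hc L Z z1 z2 z3 (hF Z z1 z2) N N1
  have h2 := kb_count L (bad a q N) (q * (q - 1)) N fun r hr => by
    simp only [bad, mem_filter, mem_Icc] at hr
    exact ⟨hr.2.1.ne_zero, hr.1.2, hcount r hr.2.1 hr.2.2.1 hr.2.2.2⟩
  rw [← hn] at h2
  set n : ℝ := (Module.finrank ℚ L : ℝ) with hn'
  have q2 : (2 : ℝ) ≤ q := by exact_mod_cast hq.two_le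
  have e : n = q * (q - 1) := by rw [hn', hn, Nat.cast_mul, Nat.cast_pred hq.pos]
  have n1 : (q : ℝ) ^ 2 ≤ 2 * n := by rw [e]; nlinarith
  have n2 : n ≤ (q : ℝ) ^ 4 := by rw [e]; nlinarith [sq_nonneg ((q : ℝ) ^ 2 - 1)]
  have n0 : 1 ≤ n := by nlinarith
  have h3 : Real.log |(NumberField.discr L : ℝ)| ≤ 2 * n * (n * A) := by
    refine (Real.log_le_log (abs_pos.2 (Int.cast_ne_zero.2 (NumberField.discr_ne_zero L))) hd).trans ?_
    rw [Real.log_pow]
    push_cast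
    have := Real.log_le_self (show 0 ≤ n * A by positivity)
    gcongr
  have y0 : 0 ≤ (N : ℝ) ^ (1 - 1 / 8000 : ℝ) := by positivity
  set y := (N : ℝ) ^ (1 - 1 / 8000 : ℝ)
  refine le_of_mul_le_mul_left ?_ (show 0 < n by linarith)
  calc n * #(bad a q N) ≤ _ := by rw [hn']; exact_mod_cast h2
    _ ≤ _ := h1
    _ ≤ C' * ((2 * A + 1) * (n * (N / (q : ℝ) ^ 2)) + y * ((2 * A + 1) * n * (q : ℝ) ^ 4)) := by
        gcongr
        · rw [← mul_div_assoc, ← mul_div_assoc, le_div_iff₀ (by positivity)]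
          have h4 : 0 ≤ n * N := by positivity
          have h5 := mul_le_mul_of_nonneg_right A2 h4
          have h6 := mul_le_mul_of_nonneg_left n1 (zero_le_one.trans N1)
          linarith
        · have : n * n * A ≤ n * (q : ℝ) ^ 4 * A := by gcongr
          nlinarith
    _ = _ := by ring

end Vale.Agent.P016
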