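import Vale.Agent.P016.TypeI
import Vale.Agent.P016.Dens
import Vale.Agent.P016.Comp
import Vale.Agent.P016.Approx

/-! P016 LowA: the lower bound at a fixed scale (TASK).
PLAN.  For `π ∈ piFinset P`, `d = ∏ π i ≥ 1` is coprime to `c M` (the primes exceed `c M`), the primes of `D = d (c M)` are `≤ z`,
`∑ 1/d = mass` (`Finset.prod_div_distrib`, `Nat.cast_prod`).  `A0 = ∑ π, VV z D gi / (d c M)`, `A1 = ∑ π, VV z D gf / (c d φ M)`,
`A0 / 2 ≤ A1 ≤ mass` (`VV_cmp`, `φ M ≤ M`), `0 ≤ A0`.  `typeI_abs` with `dens_one` and with `dens_vm` (`Q = U² z^K`, `κ ≤ 1/d`), `approx` for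
`G = 1` and `G = Λ` (`1 ≤ log N`, `ArithmeticFunction.vonMangoldt_le_log`), `S_one`.  With `x = A0 * QQ gi ≥ N mass/(c M) - e₀`:
if `0 ≤ QQ gi` then `A1 * QQ gi ≥ x / 2`; otherwise `x ≤ 0`, so `N mass / (c M) ≤ e₀` and the claim follows from `0 ≤ SS`.
Finally `QQ_cmp`. -/

namespace Vale.Agent.P016

open Finset Filter Vale.Agent.P005
open scoped ArithmeticFunction.vonMangoldt

private theorem lowA_real {m W q t e R E a S0 S1 T0 T1 A0 A1 Qi Qf : ℝ} (hW : 0 ≤ W)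
    (hq : 0 ≤ q) (ht : 0 ≤ t) (hm : 0 ≤ m) (hRE : 0 ≤ R * E) (ha : 0 ≤ a) (he : 0 ≤ e) (hR : 0 ≤ R)
    (h0 : |T0 - A0 * Qi| ≤ m * t + R) (h1 : |T1 - A1 * Qf| ≤ m * t + R * E)
    (h2 : W - e ≤ S0) (h3 : |S0 - T0| ≤ a) (h4 : |S1 - T1| ≤ a) (h5 : |Qf - Qi| ≤ q)
    (h6 : 0 ≤ A0) (h7 : A0 / 2 ≤ A1) (h8 : A1 ≤ m) (h9 : 0 ≤ S1) :
    W / 2 - m * (q + 2 * t) - (e + R * (E + 1)) - 2 * a ≤ S1 := by
  have a0 := abs_le.1 h0
  have a1 := abs_le.1 h1
  have a3 := abs_le.1 h3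
  have a4 := abs_le.1 h4
  have a5 := abs_le.1 h5
  have b1 : 0 ≤ m * t := mul_nonneg hm ht
  have b2 : 0 ≤ m * q := mul_nonneg hm hq
  rcases le_total 0 Qi with h | h
  · have b3 : A0 / 2 * Qi ≤ A1 * Qi := mul_le_mul_of_nonneg_right h7 h
    have b4 : A1 * (Qi - q) ≤ A1 * Qf := mul_le_mul_of_nonneg_left (by linarith) (by linarith)
    have b5 : A1 * q ≤ m * q := mul_le_mul_of_nonneg_right h8 hq
    nlinarith
  · have b3 : A0 * Qi ≤ 0 := mul_nonpos_of_nonneg_of_nonpos h6 h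
    nlinarith

private theorem lowA_sum {j : ℕ} (T : Finset (Fin j → ℕ)) (f κ V : (Fin j → ℕ) → ℝ) {Q t R : ℝ}
    (ht : 0 ≤ t) (hκ : ∀ π ∈ T, κ π ≤ ∏ l, (1 : ℝ) / π l)
    (h : ∀ π ∈ T, |f π - κ π * V π * Q| ≤ κ π * t + R) :
    |∑ π ∈ T, f π - (∑ π ∈ T, κ π * V π) * Q| ≤ mass T * t + #T * R := by
  rw [sum_mul, ← sum_sub_distrib, mass, sum_mul, ← nsmul_eq_mul, ← sum_const, ← sum_add_distrib]
  refine (abs_sum_le_sum_abs _ _).trans (sum_le_sum fun π hπ => (h π hπ).trans ?_)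
  exact add_le_add_left (mul_le_mul_of_nonneg_right (hκ π hπ) ht) _

theorem lower_fin {δ₀ C δ : ℝ} (hδ : δ₀ ≤ 1 / 4) (hPA : P013.PA δ₀ C) {N A U z K c b M j : ℕ}
    {P : Fin j → Finset ℕ} (h : ClsA c b M) (hN : 3 ≤ N) (hz : 4 * Real.log N ≤ z)
    (hP : ∀ i, ∀ p ∈ P i, p.Prime ∧ c * M < p ∧ p ≤ z) (hMz : c * M ≤ z)
    (hd : ∀ π ∈ Fintype.piFinset P, (∏ i, π i) * (c * M) ≤ N)
    (hII : ∀ b', TIIz N A δ P z (c * M) b') (hU : (N : ℝ) ^ δ ≤ U) (hU1 : 1 ≤ U)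
    (hUN : U ^ 2 ≤ N) :
    N * mass (Fintype.piFinset P) / (2 * (c * M)) -
        mass (Fintype.piFinset P) * (8 * N * Real.log N ^ 2 * (1 + Real.log N) / z +
          32 * N * Real.log N * (1 + Real.log N) * tail z K) -
        #(Fintype.piFinset P) * (C * (N : ℝ) ^ (1 - δ₀) + z * Real.log N + 2 * U * Real.log N ^ 2 +
          4 * Real.log N * U ^ 2 * (K + 1) * (z : ℝ) ^ K *
            (C * (N : ℝ) ^ (1 - δ₀) + U ^ 2 * (z : ℝ) ^ K * M * (Real.log N + 1) + 2)) -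
        2 * (c * M * Real.log N ^ 2 * (N / Real.log N ^ A)) ≤
      SS N z c b M P fun m => Λ m := by
  classical
  obtain ⟨hc, hM⟩ := dens_pos h
  have hC : 0 ≤ C := by
    simpa using (abs_nonneg _).trans (hPA 1 0 1 le_rfl (by simp) (by simp))
  have hL : 1 ≤ Real.log N := by
    have h3 : (3 : ℝ) ≤ N := by exact_mod_cast hN
    rw [Real.le_log_iff_exp_le (by linarith)]
    have := Real.exp_one_lt_d9
    linarith
  have hz1 : 1 ≤ z := le_trans (Nat.mul_pos hc hM) hMz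
  have hz0 : (0 : ℝ) < z := by exact_mod_cast hz1
  have hc' : (1 : ℝ) ≤ c := by exact_mod_cast hc
  have hM' : (1 : ℝ) ≤ M := by exact_mod_cast hM
  have hφ : (1 : ℝ) ≤ Nat.totient M := by exact_mod_cast Nat.totient_pos.2 hM
  have hφ' : (Nat.totient M : ℝ) ≤ M := by exact_mod_cast Nat.totient_le M
  have hP0 : ∀ i, ∀ p ∈ P i, 0 < p := fun i p hp => (hP i p hp).1.pos
  have hπ : ∀ π ∈ Fintype.piFinset P, 1 ≤ ∏ i, π i ∧ (∏ i, π i).Coprime (c * M) ∧
      (∀ l, l.Prime → l ∣ (∏ i, π i) * (c * M) → l ≤ z) ∧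
      ∏ l, (1 : ℝ) / π l = 1 / ((∏ i, π i : ℕ) : ℝ) := fun π hπ => by
    have h1 := fun i => hP i _ (Fintype.mem_piFinset.1 hπ i)
    refine ⟨prod_pos fun i _ => (h1 i).1.pos, Nat.Coprime.prod_left fun i _ =>
      (Nat.Prime.coprime_iff_not_dvd (h1 i).1).2 fun h2 =>
        absurd (Nat.le_of_dvd (Nat.mul_pos hc hM) h2) (not_le.2 (h1 i).2.1), fun l hl h2 => ?_, ?_⟩
    · rcases (Nat.Prime.dvd_mul hl).1 h2 with h3 | h3
      · obtain ⟨i, -, h4⟩ := (Prime.dvd_finsetProd_iff hl.prime _).1 h3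
        exact (Nat.le_of_dvd (h1 i).1.pos h4).trans (h1 i).2.2
      · exact (Nat.le_of_dvd (Nat.mul_pos hc hM) h3).trans hMz
    · rw [prod_div_distrib, Nat.cast_prod, prod_const_one]
  have hd0 : ∀ π ∈ Fintype.piFinset P, (0 : ℝ) < ((∏ i, π i : ℕ) : ℝ) := fun π h => by
    exact_mod_cast (hπ π h).1
  have k0 : ∀ π ∈ Fintype.piFinset P, 1 / (((∏ i, π i : ℕ) : ℝ) * (c * M : ℝ)) ≤
      1 / (c * ((∏ i, π i : ℕ) : ℝ) * Nat.totient M : ℝ) := fun π h => by
    have := hd0 π h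
    refine one_div_le_one_div_of_le (by positivity) ?_
    rw [mul_comm (c : ℝ), mul_assoc]
    gcongr
  have k1 : ∀ π ∈ Fintype.piFinset P, 1 / (c * ((∏ i, π i : ℕ) : ℝ) * Nat.totient M : ℝ) ≤
      ∏ l, (1 : ℝ) / π l := fun π h => by
    have := hd0 π h
    rw [(hπ π h).2.2.2]
    refine one_div_le_one_div_of_le this ?_
    exact (le_mul_of_one_le_left this.le hc').trans (le_mul_of_one_le_right (by positivity) hφ)
  have ht : 0 ≤ 16 * N * Real.log N * (1 + Real.log N) * tail z K := by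
    unfold tail
    positivity
  have h0 := lowA_sum (Fintype.piFinset P)
    (fun π => ∑ n ∈ Icc 1 N, tI U n * nu z n * wg c b M (∏ i, π i) (fun _ => 1) n)
    (fun π => 1 / (((∏ i, π i : ℕ) : ℝ) * (c * M : ℝ)))
    (fun π => VV z ((∏ i, π i) * (c * M)) gi) (Q := QQ N U z gi)
    (R := 4 * Real.log N * U ^ 2 * (K + 1) * (z : ℝ) ^ K) ht
    (fun π h => (k0 π h).trans (k1 π h)) fun π hh => by
      have := hd0 π hh
      refine (typeI_abs (K := K) (wg_nonneg fun _ => zero_le_one) multG_gi (by positivity)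
        (dens_one h (hπ π hh).1 (hπ π hh).2.1 N (U ^ 2 * z ^ K)) hz1 (hπ π hh).2.2.1 hU1 hUN le_rfl
        fun e he _ _ => ?_).trans (le_of_eq (by ring))
      unfold gi
      gcongr
      norm_num
  have h1 := lowA_sum (Fintype.piFinset P)
    (fun π => ∑ n ∈ Icc 1 N, tI U n * nu z n * wg c b M (∏ i, π i) (fun m => Λ m) n)
    (fun π => 1 / (c * ((∏ i, π i : ℕ) : ℝ) * Nat.totient M : ℝ))
    (fun π => VV z ((∏ i, π i) * (c * M)) gf) (Q := QQ N U z gf)
    (R := 4 * Real.log N * U ^ 2 * (K + 1) * (z : ℝ) ^ K *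
      (C * (N : ℝ) ^ (1 - δ₀) + U ^ 2 * (z : ℝ) ^ K * M * (Real.log N + 1) + 1)) ht k1
    fun π hh => by
      have := hd0 π hh
      refine (typeI_abs (K := K) (wg_nonneg fun _ => ArithmeticFunction.vonMangoldt_nonneg)
        multG_gf (by positivity) (dens_vm hδ hPA h (hπ π hh).1 (hπ π hh).2.1 (by omega)
          (U ^ 2 * z ^ K)) hz1 (hπ π hh).2.2.1 hU1 hUN le_rfl
        fun e he heN hr => (rough_gf hN hz he heN hr).1).trans (le_of_eq ?_)
      push_cast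
      ring
  have h2 : N * mass (Fintype.piFinset P) / (c * M) -
      #(Fintype.piFinset P) * (C * (N : ℝ) ^ (1 - δ₀) + z * Real.log N) ≤
      SS N z c b M P fun _ => 1 := by
    rw [mass, mul_sum, sum_div, ← nsmul_eq_mul (#_), ← sum_const, ← sum_sub_distrib]
    refine sum_le_sum fun π hh => le_trans (le_of_eq ?_)
      (S_one hPA h (hπ π hh).1 (hπ π hh).2.1 (hd π hh) z)
    rw [(hπ π hh).2.2.2, mul_one_div, div_div]
    ring
  have h3 := approx (b := b) hN hc hM hP0 hII hU (G := fun _ => 1) fun _ _ => by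
    rw [abs_one]
    exact hL
  have h4 := approx (b := b) hN hc hM hP0 hII hU (G := fun m => Λ m) fun m hm => by
    rw [abs_of_nonneg ArithmeticFunction.vonMangoldt_nonneg]
    rcases Nat.eq_zero_or_pos m with rfl | h0
    · simp only [ArithmeticFunction.map_zero]
      linarith
    · exact ArithmeticFunction.vonMangoldt_le_log.trans
        (Real.log_le_log (by exact_mod_cast h0) (by exact_mod_cast hm))
  have hm : 0 ≤ mass (Fintype.piFinset P) :=
    sum_nonneg fun q _ => prod_nonneg fun l _ => by positivity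
  have h2c : 2 ∣ c := by rcases h.1 with h | h <;> omega
  rw [← mul_assoc (#(Fintype.piFinset P) : ℝ)] at h1
  refine le_trans (le_of_eq ?_) (lowA_real (by positivity) (by positivity) ht hm (by positivity)
    (by positivity) (by positivity) (by positivity) h0 h1 h2 h3 h4 (QQ_cmp hN hz hU1 hUN)
    (sum_nonneg fun π hh => ?_) ?_ (sum_le_sum fun π hh => ?_) ?_)
  · ring
  · have := hd0 π hh
    exact mul_nonneg (by positivity) (VV_nonneg multG_gi _ _)
  · rw [sum_div]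
    refine sum_le_sum fun π hh => ?_
    have := hd0 π hh
    rw [mul_div_assoc]
    exact mul_le_mul (k0 π hh) (VV_cmp ((h2c.mul_right M).mul_left _) z)
      (div_nonneg (VV_nonneg multG_gi _ _) zero_le_two) (by positivity)
  · have := hd0 π hh
    exact (mul_le_of_le_one_right (by positivity) (VV_le_one multG_gf _ _)).trans (k1 π hh)
  · refine sum_nonneg fun π _ => sum_nonneg fun n _ => mul_nonneg (mul_nonneg
      ArithmeticFunction.vonMangoldt_nonneg ?_)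
      (wg_nonneg (fun _ => ArithmeticFunction.vonMangoldt_nonneg) n)
    unfold nu
    split_ifs <;> norm_num

end Vale.Agent.P016
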