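import Vale.Agent.P016.Defs
import Vale.Agent.P016.Euler
import Vale.Agent.P016.Split
import Vale.Agent.P319.N.ZetaTwo

/-! P016 Quad: the zero-free half plane descends from `F(ω)` to `F`.
PLAN.  `fj K j s l = (N l / 3) ^ j * N l ^ (-s)` is multiplicative (`legendreSym.mul`, `Complex.natCast_mul_natCast_cpow`), summable for
`1 < re s` (`P319.zeta_summable_ideal`).  `quad_id`: `S X` = primes of `F` of norm `≤ X` (`Ideal.finite_setOfPred_absNorm_le`), `S' X` = the primes of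
`L` over them (`Finset.biUnion` of `primesOverFinset`, disjoint; `absNorm_under_le`), `local_id` gives `Π_L = Π_F Π_η`; `sieve_lim` three
times: `a = a * lim (b Π_F c Π_η) = b c * lim (a Π_L) = b c` (`tendsto_nhds_unique`).
`star_eq`: `sieve_id` for `j = 0` and the finite set of primes containing `3`; `3 ∣ N l` iff such a prime divides `l`; `legendreSym.sq_one`;
`P319.dedekindZeta_eq_tsum`.  The factor is entire and has no zero for `0 < re s` (`‖N ^ (-s)‖ < 1`).
`zff_of_quad`: if `F ∋ ω` done.  Else `exists_quad`; `(s - 1) Z_L E_L = Z E_F Z_η` on `1 < re s`, hence everywhere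
(`AnalyticOnNhd.eq_of_eventuallyEq`); at `s = 1` use `NumberField.tendsto_sub_one_mul_dedekindZeta_nhdsGT`, continuity of `Z`,
`dedekindZeta_residue_ne_zero`. -/

namespace Vale.Agent.P016

open Filter Topology
open scoped NumberField nonZeroDivisors

/-- `(N l / 3) ^ j N l ^ (-s)` -/
noncomputable def fj (K : Type) [Field K] [NumberField K] (j : ℕ) (s : ℂ) (l : Ideal (𝓞 K)) : ℂ :=
  (legendreSym 3 (Ideal.absNorm l) : ℂ) ^ j * (Ideal.absNorm l : ℂ) ^ (-s)

theorem fj_mul (K : Type) [Field K] [NumberField K] (j : ℕ) (s : ℂ) (I J : Ideal (𝓞 K)) :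
    fj K j s (I * J) = fj K j s I * fj K j s J := by
  simp only [fj, map_mul, Nat.cast_mul, legendreSym.mul, Int.cast_mul,
    Complex.natCast_mul_natCast_cpow]
  ring

theorem fj_one (K : Type) [Field K] [NumberField K] (j : ℕ) (s : ℂ) : fj K j s 1 = 1 := by
  simp [fj]

theorem fj_summable (K : Type) [Field K] [NumberField K] (j : ℕ) {s : ℂ} (hs : 1 < s.re) :
    Summable fun l : (Ideal (𝓞 K))⁰ => fj K j s l.1 := by
  refine (P319.zeta_summable_ideal K hs).of_norm_bounded fun l => ?_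
  rw [fj, norm_mul, P319.zetaTwo_norm, norm_pow]
  refine mul_le_of_le_one_left (by positivity) (pow_le_one₀ (norm_nonneg _) ?_)
  by_cases h : (((Ideal.absNorm l.1 : ℕ) : ℤ) : ZMod 3) = 0
  · rw [(legendreSym.eq_zero_iff 3 _).2 h]
    simp
  · rcases legendreSym.eq_one_or_neg_one 3 h with h | h <;> rw [h] <;> simp

theorem quad_finite (K : Type) [Field K] [NumberField K] (X : ℕ) :
    {P : Ideal (𝓞 K) | Prime P ∧ Ideal.absNorm P ≤ X}.Finite :=
  (Ideal.finite_setOfPred_absNorm_le X).subset fun _ h => h.2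

theorem quad_id {F L : Type} [Field F] [NumberField F] [Field L] [NumberField L] [Algebra F L]
    (h2 : Module.finrank F L = 2) {w : L} (hw : w ^ 2 + w + 1 = 0)
    (hF : ∀ x : F, x ^ 2 + x + 1 ≠ 0) {s : ℂ} (hs : 1 < s.re) :
    ∑' l : (Ideal (𝓞 L))⁰, fj L 2 s l.1 =
      (∑' l : (Ideal (𝓞 F))⁰, fj F 2 s l.1) * ∑' l : (Ideal (𝓞 F))⁰, fj F 1 s l.1 := by
  classical
  obtain ⟨S, hS⟩ : ∃ S : ℕ → Finset (Ideal (𝓞 F)), ∀ X P, P ∈ S X ↔
      Prime P ∧ Ideal.absNorm P ≤ X :=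
    ⟨fun X => (quad_finite F X).toFinset, fun X P => Set.Finite.mem_toFinset _⟩
  have hT : ∀ P : Ideal (𝓞 F), ∃ T : Finset (Ideal (𝓞 L)), Prime P →
      ∀ Q, Q ∈ T ↔ Q.IsPrime ∧ Q.LiesOver P := fun P => by
    by_cases hP : Prime P
    · have := (Ideal.isPrime_of_prime hP).isMaximal hP.ne_zero
      exact ⟨(IsDedekindDomain.primesOver_finite P (𝓞 L)).toFinset, fun _ Q =>
        Set.Finite.mem_toFinset _⟩
    · exact ⟨∅, fun h => absurd h hP⟩
  choose T hT using hT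
  have hp : ∀ X, ∀ Q ∈ (S X).biUnion T, Prime Q := fun X Q hQ => by
    obtain ⟨P, hP, hQ⟩ := Finset.mem_biUnion.1 hQ
    have hP' := ((hS X P).1 hP).1
    obtain ⟨h1, h3⟩ := (hT P hP' Q).1 hQ
    exact Ideal.prime_of_isPrime (Ideal.ne_bot_of_liesOver_of_ne_bot hP'.ne_zero Q) h1
  have a1 := sieve_lim (fj_mul L 2 s) (fj_one L 2 s) (fj_summable L 2 hs)
    (fun X => (S X).biUnion T) hp fun X Q hQ h => by
      obtain ⟨h1, h3⟩ := absNorm_under_le (F := F) hQ
      exact Finset.mem_biUnion.2 ⟨_, (hS X _).2 ⟨h1, h3.trans h⟩,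
        (hT _ h1 Q).2 ⟨Ideal.isPrime_of_prime hQ, ⟨rfl⟩⟩⟩
  have a2 := fun j => sieve_lim (fj_mul F j s) (fj_one F j s) (fj_summable F j hs) S
    (fun X P h => ((hS X P).1 h).1) fun X P h h' => (hS X P).2 ⟨h, h'⟩
  have e : ∀ X, ∏ Q ∈ (S X).biUnion T, (1 - fj L 2 s Q) =
      (∏ P ∈ S X, (1 - fj F 2 s P)) * ∏ P ∈ S X, (1 - fj F 1 s P) := fun X => by
    rw [Finset.prod_biUnion, ← Finset.prod_mul_distrib]
    · refine Finset.prod_congr rfl fun P hP => ?_
      have hP' := ((hS X P).1 hP).1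
      simpa only [fj, pow_one] using local_id h2 hw hF hP' s (hT P hP')
    · intro P hP P' hP' hne
      refine Finset.disjoint_left.2 fun Q h h' => hne ?_
      exact ((hT P ((hS X P).1 hP).1 Q).1 h).2.over.trans
        ((hT P' ((hS X P').1 hP').1 Q).1 h').2.over.symm
  have b1 := ((a2 2).mul (a2 1)).const_mul (∑' l : (Ideal (𝓞 L))⁰, fj L 2 s l.1)
  have b2 := a1.const_mul
    ((∑' l : (Ideal (𝓞 F))⁰, fj F 2 s l.1) * ∑' l : (Ideal (𝓞 F))⁰, fj F 1 s l.1)
  simp only [mul_one] at b1 b2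
  refine tendsto_nhds_unique b1 (b2.congr fun X => ?_)
  rw [e]
  ring

theorem quad_three {K : Type} [Field K] [NumberField K] {l : Ideal (𝓞 K)} (hl : l ≠ 0) :
    3 ∣ Ideal.absNorm l ↔ ∃ P : Ideal (𝓞 K), (Prime P ∧ 3 ∣ Ideal.absNorm P) ∧ P ∣ l := by
  refine ⟨fun h => ?_, fun ⟨P, h1, h2⟩ => h1.2.trans (map_dvd Ideal.absNorm h2)⟩
  induction l using UniqueFactorizationMonoid.induction_on_prime with
  | h₁ => exact absurd rfl hl
  | h₂ u hu =>
    rw [isUnit_iff_eq_one.1 hu, map_one] at h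
    exact absurd h (by norm_num)
  | h₃ n p h0 hp ih =>
    rw [map_mul] at h
    rcases (Nat.prime_three.dvd_mul).1 h with h | h
    · exact ⟨p, ⟨hp, h⟩, dvd_mul_right _ _⟩
    · obtain ⟨P, h1, h2⟩ := ih h0 h
      exact ⟨P, h1, h2.mul_left _⟩

theorem quad_finite_three (K : Type) [Field K] [NumberField K] :
    {P : Ideal (𝓞 K) | Prime P ∧ 3 ∣ Ideal.absNorm P}.Finite := by
  refine (Ideal.finite_setOfPred_absNorm_le (Ideal.absNorm (Ideal.span {(3 : 𝓞 K)}))).subset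
    fun P h => ?_
  have := (Ideal.isPrime_of_prime h.1).isMaximal h.1.ne_zero
  obtain ⟨p, n, -, hp, hp', e⟩ := Ideal.exists_prime_and_absNorm_eq_pow P
  have h3 : 3 = p := (Nat.prime_dvd_prime_iff_eq Nat.prime_three hp').1
    (Nat.prime_three.dvd_of_dvd_pow (e ▸ h.2))
  subst h3
  refine Nat.le_of_dvd (Nat.pos_of_ne_zero ?_) (Ideal.absNorm_dvd_absNorm_of_le
    ((Ideal.span_singleton_le_iff_mem _).2 (by exact_mod_cast hp)))
  rw [Ne, Ideal.absNorm_eq_zero_iff, Ideal.span_singleton_eq_bot]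
  norm_num

theorem star_eq (K : Type) [Field K] [NumberField K] : ∃ E : ℂ → ℂ, Differentiable ℂ E ∧
    (∀ s : ℂ, 0 < s.re → E s ≠ 0) ∧ ∀ s : ℂ, 1 < s.re →
      ∑' l : (Ideal (𝓞 K))⁰, fj K 2 s l.1 = NumberField.dedekindZeta K s * E s := by
  classical
  obtain ⟨S, hS⟩ : ∃ S : Finset (Ideal (𝓞 K)), ∀ P, P ∈ S ↔ Prime P ∧ 3 ∣ Ideal.absNorm P :=
    ⟨(quad_finite_three K).toFinset, fun P => Set.Finite.mem_toFinset _⟩
  have h1 : ∀ P ∈ S, 1 < Ideal.absNorm P := fun P hP => by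
    obtain ⟨h, h'⟩ := (hS P).1 hP
    have := Nat.le_of_dvd (Nat.pos_of_ne_zero (mt Ideal.absNorm_eq_zero_iff.1 h.ne_zero)) h'
    omega
  refine ⟨fun s => ∏ P ∈ S, (1 - (Ideal.absNorm P : ℂ) ^ (-s)), ?_, fun s hs => ?_, fun s hs => ?_⟩
  · refine Differentiable.fun_finsetProd fun P hP => (differentiable_const _).sub
      (differentiable_id.neg.const_cpow (Or.inl (Nat.cast_ne_zero.2 ?_)))
    have := h1 P hP
    omega
  · refine Finset.prod_ne_zero_iff.2 fun P hP h => ?_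
    have h2 := congrArg norm (sub_eq_zero.1 h)
    rw [norm_one, Complex.norm_natCast_cpow_of_pos (by have := h1 P hP; omega),
      Complex.neg_re] at h2
    exact (Real.rpow_lt_one_of_one_lt_of_neg (by exact_mod_cast h1 P hP) (by linarith)).ne' h2
  · have h := sieve_id (fj_mul K 0 s) (fj_summable K 0 hs) S fun P hP => ((hS P).1 hP).1
    simp only [fj, pow_zero, one_mul] at h
    rw [P319.dedekindZeta_eq_tsum K hs, h]
    refine tsum_congr fun l => ?_
    have e := quad_three (nonZeroDivisors.coe_ne_zero l)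
    have e' : (((Ideal.absNorm l.1 : ℕ) : ℤ) : ZMod 3) = 0 ↔ 3 ∣ Ideal.absNorm l.1 := by
      rw [Int.cast_natCast, ZMod.natCast_eq_zero_iff]
    rw [fj]
    split_ifs with h3
    · have : ¬3 ∣ Ideal.absNorm l.1 := fun h4 => by
        obtain ⟨P, h5, h6⟩ := e.1 h4
        exact h3 P ((hS P).2 h5) h6
      rw [← Int.cast_pow, legendreSym.sq_one 3 (mt e'.1 this), Int.cast_one, one_mul]
    · push Not at h3
      obtain ⟨P, h5, h6⟩ := h3
      rw [(legendreSym.eq_zero_iff 3 _).2 (e'.2 (e.2 ⟨P, (hS P).1 h5, h6⟩))]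
      simp

theorem quad_at_one {F : Type} [Field F] [NumberField F] {Z : ℂ → ℂ} (hZ : Differentiable ℂ Z)
    (h : ∀ s : ℂ, 1 < s.re → Z s = (s - 1) * NumberField.dedekindZeta F s) : Z 1 ≠ 0 := by
  have h1 := NumberField.tendsto_sub_one_mul_dedekindZeta_nhdsGT F
  have h2 : Tendsto (fun s : ℝ => Z s) (𝓝[>] 1) (𝓝 (Z 1)) :=
    ((hZ.continuous.comp Complex.continuous_ofReal).tendsto' 1 _ (by simp)).mono_left
      nhdsWithin_le_nhds
  have h3 := tendsto_nhds_unique h2 (h1.congr' (eventually_nhdsWithin_of_forall fun s hs =>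
    (h s (by simpa using hs)).symm))
  rw [h3]
  exact Complex.ofReal_ne_zero.2 (NumberField.dedekindZeta_residue_ne_zero F)

theorem zff_of_quad (F : Type) [Field F] [NumberField F] (hE : EtaF F)
    (hL : ∀ (L : Type) [Field L] [NumberField L], (∃ w : L, w ^ 2 + w + 1 = 0) → ZFF L ∧
      ∃ Z : ℂ → ℂ, Differentiable ℂ Z ∧
        ∀ s : ℂ, 1 < s.re → Z s = (s - 1) * NumberField.dedekindZeta L s) : ZFF F := by
  by_cases hw : ∃ w : F, w ^ 2 + w + 1 = 0
  · exact (hL F hw).1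
  push Not at hw
  obtain ⟨L, _, _, _, h2, w, hw'⟩ := exists_quad F hw
  obtain ⟨hz, ZL, hZL, eL⟩ := hL L ⟨w, hw'⟩
  obtain ⟨Y, hY, eY⟩ := hE
  obtain ⟨EL, dL, nL, sL⟩ := star_eq L
  obtain ⟨EF, dF, -, sF⟩ := star_eq F
  intro Z hZ eZ s hs h0
  by_cases h1 : s = 1
  · exact quad_at_one hZ eZ (h1 ▸ h0)
  have key : (fun s => (s - 1) * ZL s * EL s) = fun s => Z s * EF s * Y s := by
    refine AnalyticOnNhd.eq_of_eventuallyEq (z₀ := 2)
      (Differentiable.differentiableOn (by fun_prop) |>.analyticOnNhd isOpen_univ)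
      (Differentiable.differentiableOn (by fun_prop) |>.analyticOnNhd isOpen_univ) ?_
    filter_upwards [(isOpen_lt continuous_const Complex.continuous_re).mem_nhds
      (show (1 : ℝ) < (2 : ℂ).re by norm_num)] with s hs
    have q := quad_id h2 hw' hw hs
    rw [sL s hs, sF s hs] at q
    simp only [fj, pow_one] at q
    rw [eL s hs, eZ s hs, eY s hs]
    linear_combination (s - 1) ^ 2 * q
  have := congrFun key s
  simp only [h0, zero_mul] at this
  exact mul_ne_zero (mul_ne_zero (sub_ne_zero.2 h1) (hz ZL hZL eL s hs)) (nL s (by linarith)) this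

end Vale.Agent.P016
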