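import Vale.Agent.P016.Defs
import Vale.Agent.P016.N0.ZetaXi
import Vale.Agent.P016.N0.ZetaEta

/-! P016: Hecke's continuation for fields with a totally non-real integer (`N0/` is a copy of parts of `P319/N/` without `ω`). -/

namespace Vale.Agent.P016

theorem xi0 : Xi0 := by
  obtain ⟨C, hC, h⟩ := N0.xi_at
  refine ⟨C, hC, fun F _ _ ⟨io, hio⟩ => ?_⟩
  obtain ⟨S⟩ := N0.exists_stp io hio
  exact ⟨h F, N0.eta_cont F⟩

end Vale.Agent.P016
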