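import Vale.Agent.P016.Final
import Vale.Agent.P016.KB
import Vale.Agent.P016.Xi0
import Vale.Agent.P013.PA4
import Vale.Agent.P013.ZFree

/-! P016: the conjecture from the type II estimate and the zero-free half plane for fields containing `ω`. -/

namespace Vale.Agent.P016

theorem artin_of_zf (hII : P005.TypeIIz')
    (hZ : ∀ (L : Type) [Field L] [NumberField L], (∃ w : L, w ^ 2 + w + 1 = 0) → ZFF L) :
    Artin := by
  obtain ⟨δ, C, h0, h1, h⟩ := P013.pa_of_zf P013.zf
  exact artin_of h0 h1 h hII (kb_of xi0 hZ)

end Vale.Agent.P016
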