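import Vale.Agent.P016.Defs

/-! P016 Sieve: Brun's pure sieve with a multiplicative density (TASK).
PLAN.  `bonf`: induction on `H` (generalizing `K`): `Finset.sum_powerset_insert`, `Finset.powersetCard_succ_insert`; with `R K` the
difference, `R (K+1) (insert a H) = R (K+1) H - x a * R K H`, and `|R 0 H| = ∏ (1 - x) ≤ 1`.
`rankin`: `e ^ K * ∑_{#S = K} ∏ x ≤ ∑_{S ⊆ H} ∏ (e x) = ∏ (1 + e x) ≤ exp (e ∑ x)` (`Finset.prod_one_add`, `Real.exp_one_lt_d9`).
`sieve_abs`: `H` = primes `≤ z`.  `nu z n = ∏ l ∈ H, (1 - 1[l ∣ n])`; for `S ⊆ H`, `e ∣ n ∧ (∀ l ∈ S, l ∣ n) ↔ e * ∏ S ∣ n` (`e` is rough,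
`Finset.prod_primes_dvd`, `Nat.Coprime.mul_dvd_of_dvd_of_dvd`); `e * ∏ S ≤ e z ^ K ≤ Q`; the density of `e * ∏ S` is `g e * ∏ l ∈ S, g' l`
with `g' l = if l ∣ D then 0 else g l`, `∏ l ∈ H, (1 - g' l) = VV z D g`; use `bonf` for the indicators and for `g'`, `rankin` for `g'`;
the number of `S` with `#S ≤ K` is at most `∑ i ≤ K, z ^ i ≤ (K + 1) z ^ K` (`Nat.choose_le_pow`). -/

namespace Vale.Agent.P016

open Finset Filter Vale.Agent.P005

theorem sieve_insA {H : Finset ℕ} {a : ℕ} (ha : a ∉ H) (x : ℕ → ℝ) (K : ℕ) :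
    ∑ S ∈ (insert a H).powerset.filter (fun S => #S < K + 1), (-1 : ℝ) ^ #S * ∏ l ∈ S, x l =
      ∑ S ∈ H.powerset.filter (fun S => #S < K + 1), (-1 : ℝ) ^ #S * ∏ l ∈ S, x l -
        x a * ∑ S ∈ H.powerset.filter (fun S => #S < K), (-1 : ℝ) ^ #S * ∏ l ∈ S, x l := by
  rw [sum_filter, sum_powerset_insert ha, sum_filter, sum_filter, mul_sum, sub_eq_add_neg,
    ← sum_neg_distrib]
  refine congrArg _ (sum_congr rfl fun S hS => ?_)
  have h : a ∉ S := fun h => ha (mem_powerset.1 hS h)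
  rw [card_insert_of_notMem h, prod_insert h]
  by_cases hc : #S < K
  · rw [if_pos hc, if_pos (by omega)]
    ring
  · rw [if_neg hc, if_neg (by omega)]
    ring

theorem sieve_insB {H : Finset ℕ} {a : ℕ} (ha : a ∉ H) (x : ℕ → ℝ) (K : ℕ) :
    ∑ S ∈ (insert a H).powersetCard (K + 1), ∏ l ∈ S, x l =
      ∑ S ∈ H.powersetCard (K + 1), ∏ l ∈ S, x l + x a * ∑ S ∈ H.powersetCard K, ∏ l ∈ S, x l := by
  simp only [powersetCard_eq_filter]
  rw [sum_filter, sum_powerset_insert ha, sum_filter, sum_filter, mul_sum]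
  refine congrArg _ (sum_congr rfl fun S hS => ?_)
  have h : a ∉ S := fun h => ha (mem_powerset.1 hS h)
  rw [card_insert_of_notMem h, prod_insert h]
  by_cases hc : #S = K
  · rw [if_pos hc, if_pos (by omega)]
  · rw [if_neg hc, if_neg (by omega), mul_zero]

theorem bonf (H : Finset ℕ) (x : ℕ → ℝ) (h0 : ∀ l ∈ H, 0 ≤ x l) (h1 : ∀ l ∈ H, x l ≤ 1) (K : ℕ) :
    |∏ l ∈ H, (1 - x l) - ∑ S ∈ H.powerset.filter (fun S => #S < K), (-1) ^ #S * ∏ l ∈ S, x l| ≤
      ∑ S ∈ H.powersetCard K, ∏ l ∈ S, x l := by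
  have z0 : ∀ H : Finset ℕ, (∀ l ∈ H, 0 ≤ x l) → (∀ l ∈ H, x l ≤ 1) →
      |∏ l ∈ H, (1 - x l) - ∑ S ∈ H.powerset.filter (fun S => #S < 0), (-1) ^ #S * ∏ l ∈ S, x l| ≤
        ∑ S ∈ H.powersetCard 0, ∏ l ∈ S, x l := by
    intro H a0 a1
    simp only [Nat.not_lt_zero, filter_false, sum_empty, sub_zero, powersetCard_zero,
      sum_singleton, prod_empty]
    rw [abs_of_nonneg (prod_nonneg fun l hl => sub_nonneg.2 (a1 l hl))]
    exact prod_le_one (fun l hl => sub_nonneg.2 (a1 l hl)) fun l hl => by linarith [a0 l hl]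
  induction H using Finset.induction_on generalizing K with
  | empty =>
    rcases K with _ | K
    · exact z0 _ h0 h1
    · have e : (∅ : Finset ℕ).powerset.filter (fun S => #S < K + 1) = {∅} := by
        rw [powerset_empty]
        exact filter_true_of_mem fun S hS => by simp [mem_singleton.1 hS]
      rw [e]
      simp only [prod_empty, sum_singleton, card_empty, pow_zero, mul_one, sub_self, abs_zero]
      exact sum_nonneg fun S hS => prod_nonneg fun l hl => h0 l ((mem_powersetCard.1 hS).1 hl)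
  | insert a H ha ih =>
    rcases K with _ | K
    · exact z0 _ h0 h1
    · have i0 := fun l hl => h0 l (mem_insert_of_mem hl)
      have i1 := fun l hl => h1 l (mem_insert_of_mem hl)
      have a0 := h0 a (mem_insert_self _ _)
      rw [sieve_insA ha, sieve_insB ha, prod_insert ha]
      have e : ∀ P A B : ℝ, (1 - x a) * P - (A - x a * B) = (P - A) - x a * (P - B) := by
        intros; ring
      rw [e]
      refine (abs_sub _ _).trans (add_le_add (ih i0 i1 _) ?_)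
      rw [abs_mul, abs_of_nonneg a0]
      exact mul_le_mul_of_nonneg_left (ih i0 i1 _) a0

theorem rankin (H : Finset ℕ) (x : ℕ → ℝ) (h0 : ∀ l ∈ H, 0 ≤ x l) (K : ℕ) :
    ∑ S ∈ H.powersetCard K, ∏ l ∈ S, x l ≤ Real.exp (-K + 3 * ∑ l ∈ H, x l) := by
  have he : Real.exp 1 ≤ 3 := by linarith [Real.exp_one_lt_d9]
  have h1 : Real.exp K * ∑ S ∈ H.powersetCard K, ∏ l ∈ S, x l ≤ Real.exp (3 * ∑ l ∈ H, x l) := by
    calc Real.exp K * ∑ S ∈ H.powersetCard K, ∏ l ∈ S, x l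
        = ∑ S ∈ H.powersetCard K, ∏ l ∈ S, (Real.exp 1 * x l) := by
          rw [mul_sum]
          refine sum_congr rfl fun S hS => ?_
          rw [prod_mul_distrib, prod_const, (mem_powersetCard.1 hS).2, ← Real.exp_nat_mul, mul_one]
      _ ≤ ∑ S ∈ H.powerset, ∏ l ∈ S, (Real.exp 1 * x l) := by
          refine sum_le_sum_of_subset_of_nonneg (fun S hS => mem_powerset.2 (mem_powersetCard.1 hS).1)
            fun S hS _ => prod_nonneg fun l hl => ?_
          exact mul_nonneg (Real.exp_pos _).le (h0 l (mem_powerset.1 hS hl))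
      _ = ∏ l ∈ H, (1 + Real.exp 1 * x l) := (prod_one_add _).symm
      _ ≤ ∏ l ∈ H, Real.exp (3 * x l) := by
          refine prod_le_prod (fun l hl => ?_) fun l hl => ?_
          · have := mul_nonneg (Real.exp_pos 1).le (h0 l hl)
            linarith
          · have := mul_le_mul_of_nonneg_right he (h0 l hl)
            linarith [Real.add_one_le_exp (3 * x l)]
      _ = _ := by rw [← Real.exp_sum, mul_sum]
  rw [Real.exp_add, Real.exp_neg, le_inv_mul_iff₀ (Real.exp_pos _)]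
  exact h1

theorem sieve_cop {S : Finset ℕ} (hS : ∀ l ∈ S, l.Prime) {a : ℕ} (ha : a.Prime) (h : a ∉ S) :
    a.Coprime (∏ l ∈ S, l) :=
  Nat.Coprime.prod_right fun l hl => (Nat.coprime_primes ha (hS l hl)).2 fun e => h (e ▸ hl)

theorem sieve_mult {g : ℕ → ℝ} (hg : MultG g) (S : Finset ℕ) (hS : ∀ l ∈ S, l.Prime) :
    g (∏ l ∈ S, l) = ∏ l ∈ S, g l := by
  induction S using Finset.induction_on with
  | empty => simpa using hg.1
  | insert a S ha ih =>
    have i0 := fun l hl => hS l (mem_insert_of_mem hl)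
    rw [prod_insert ha, prod_insert ha,
      hg.2.1 _ _ (sieve_cop i0 (hS a (mem_insert_self _ _)) ha), ih i0]

theorem sieve_rough {z e m : ℕ} (hr : Rough z e) (hm : ∀ l, l.Prime → l ∣ m → l ≤ z) :
    e.Coprime m :=
  Nat.coprime_of_dvd fun p hp h1 h2 => absurd (hr p hp h1) (not_lt.2 (hm p hp h2))

theorem sieve_term {w g : ℕ → ℝ} {N Q D z K e y : ℕ} {κ E : ℝ} (hg : MultG g)
    (h : Dens w N Q D g κ E) (hz : 1 ≤ z) (hD : ∀ l, l.Prime → l ∣ D → l ≤ z)
    (he : 1 ≤ e) (hr : Rough z e) (hQ : e * z ^ K ≤ Q) (hy : y ≤ N) {S : Finset ℕ}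
    (hS : S ⊆ (Icc 1 z).filter Nat.Prime) (hK : #S ≤ K) :
    |∑ n ∈ (Icc 1 y).filter (e ∣ ·), w n * ∏ l ∈ S, (if l ∣ n then (1 : ℝ) else 0) -
      κ * y * g e * ∏ l ∈ S, (if l ∣ D then 0 else g l)| ≤ E := by
  have hp : ∀ l ∈ S, l.Prime := fun l hl => (mem_filter.1 (hS hl)).2
  have hlz : ∀ l ∈ S, l ≤ z := fun l hl => (mem_Icc.1 (mem_filter.1 (hS hl)).1).2
  have hc : e.Coprime (∏ l ∈ S, l) := Nat.Coprime.prod_right fun l hl =>
    sieve_rough hr fun p hpp hpl => (Nat.le_of_dvd (hp l hl).pos hpl).trans (hlz l hl)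
  have hpos : 0 < ∏ l ∈ S, l := prod_pos fun l hl => (hp l hl).pos
  have hle : e * ∏ l ∈ S, l ≤ Q := by
    refine le_trans (Nat.mul_le_mul_left _ ?_) hQ
    exact (prod_le_pow_card _ _ _ hlz).trans (Nat.pow_le_pow_right hz hK)
  have key := h (e * ∏ l ∈ S, l) y (Nat.mul_pos he hpos) hle hy
  have e1 : ∑ n ∈ (Icc 1 y).filter (e ∣ ·), w n * ∏ l ∈ S, (if l ∣ n then (1 : ℝ) else 0) =
      ∑ n ∈ (Icc 1 y).filter ((e * ∏ l ∈ S, l) ∣ ·), w n := by
    rw [sum_filter, sum_filter]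
    refine sum_congr rfl fun n _ => ?_
    rw [prod_boole]
    by_cases h1 : e * ∏ l ∈ S, l ∣ n
    · rw [if_pos h1, if_pos ((dvd_mul_right _ _).trans h1),
        if_pos fun l hl => ((dvd_prod_of_mem _ hl).trans (dvd_mul_left _ _)).trans h1, mul_one]
    · rw [if_neg h1]
      split_ifs with h2 h3
      · exact absurd (hc.mul_dvd_of_dvd_of_dvd h2
          (prod_primes_dvd n (fun l hl => (hp l hl).prime) h3)) h1
      · exact mul_zero _
      · rfl
  have e2 : g e * ∏ l ∈ S, (if l ∣ D then 0 else g l) =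
      if (e * ∏ l ∈ S, l).Coprime D then g (e * ∏ l ∈ S, l) else 0 := by
    by_cases h1 : ∃ l ∈ S, l ∣ D
    · obtain ⟨l, hl, hlD⟩ := h1
      rw [prod_eq_zero (f := fun l => if l ∣ D then 0 else g l) hl (if_pos hlD), mul_zero,
        if_neg (Nat.Prime.not_coprime_iff_dvd.2
        ⟨l, hp l hl, (dvd_prod_of_mem (fun l => l) hl).trans (dvd_mul_left _ _), hlD⟩)]
    · have h2 : ∀ l ∈ S, ¬l ∣ D := fun l hl hd => h1 ⟨l, hl, hd⟩
      rw [if_pos (Nat.Coprime.mul_left (sieve_rough hr hD) (Nat.Coprime.prod_left fun l hl =>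
        (hp l hl).coprime_iff_not_dvd.2 (h2 l hl))), hg.2.1 _ _ hc, sieve_mult hg S hp]
      exact congrArg _ (prod_congr rfl fun l hl => if_neg (h2 l hl))
  rw [e1, mul_assoc (κ * y), e2]
  exact key

theorem sieve_card (H : Finset ℕ) {z : ℕ} (hz : 1 ≤ z) (hH : #H ≤ z) (K : ℕ) :
    #(H.powerset.filter fun S => #S < K) ≤ K * z ^ K ∧ #(H.powersetCard K) ≤ z ^ K := by
  have h1 : ∀ i, i ≤ K → #(H.powersetCard i) ≤ z ^ K := fun i hi => by
    rw [card_powersetCard]
    exact (Nat.choose_le_pow _ _).trans ((Nat.pow_le_pow_left hH _).trans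
      (Nat.pow_le_pow_right hz hi))
  refine ⟨?_, h1 K le_rfl⟩
  have h2 : (H.powerset.filter fun S => #S < K) ⊆ (range K).biUnion fun i => H.powersetCard i := by
    intro S hS
    rw [mem_filter, mem_powerset] at hS
    exact mem_biUnion.2 ⟨#S, mem_range.2 hS.2, mem_powersetCard.2 ⟨hS.1, rfl⟩⟩
  refine (card_le_card h2).trans ((card_biUnion_le_card_mul _ _ _ fun i hi =>
    h1 i (mem_range.1 hi).le).trans ?_)
  rw [card_range]

theorem sieve_abs {w g : ℕ → ℝ} {N Q D z K e y : ℕ} {κ E : ℝ} (hw : ∀ n, 0 ≤ w n) (hg : MultG g)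
    (hκ : 0 ≤ κ) (h : Dens w N Q D g κ E) (hz : 1 ≤ z) (hD : ∀ l, l.Prime → l ∣ D → l ≤ z)
    (he : 1 ≤ e) (hr : Rough z e) (hQ : e * z ^ K ≤ Q) (hy : y ≤ N) :
    |∑ n ∈ (Icc 1 y).filter (e ∣ ·), nu z n * w n - κ * g e * VV z D g * y| ≤
      2 * κ * N * g e * tail z K + (K + 1) * (z : ℝ) ^ K * E := by
  set H := (Icc 1 z).filter Nat.Prime with hH
  set g' : ℕ → ℝ := fun l => if l ∣ D then 0 else g l with hg'
  set I := (Icc 1 y).filter (e ∣ ·) with hI
  set W : Finset ℕ → ℝ := fun S => ∑ n ∈ I, w n * ∏ l ∈ S, (if l ∣ n then (1 : ℝ) else 0) with hW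
  set m : ℝ := κ * y * g e with hm
  have hge := hg.2.2.1 e
  have hm0 : 0 ≤ m := by positivity
  have hterm : ∀ S, S ⊆ H → #S ≤ K → |W S - m * ∏ l ∈ S, g' l| ≤ E := fun S h1 h2 =>
    sieve_term hg h hz hD he hr hQ hy h1 h2
  have hE : 0 ≤ E := (abs_nonneg _).trans (hterm ∅ (empty_subset _) (by simp))
  have g0 : ∀ l ∈ H, 0 ≤ g' l := fun l _ => by
    simp only [hg']
    split_ifs
    · exact le_rfl
    · exact hg.2.2.1 l
  have g1 : ∀ l ∈ H, g' l ≤ 1 ∧ g' l ≤ 2 / l := fun l hl => by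
    simp only [hg']
    split_ifs
    · exact ⟨zero_le_one, by positivity⟩
    · exact hg.2.2.2 l (mem_filter.1 hl).2
  have hV : VV z D g = ∏ l ∈ H, (1 - g' l) := by
    rw [VV, hH, ← filter_filter, prod_filter (fun l => ¬l ∣ D)]
    refine prod_congr rfl fun l _ => ?_
    simp only [hg']
    split_ifs <;> simp
  have hnu : ∀ n, nu z n = ∏ l ∈ H, (1 - if l ∣ n then (1 : ℝ) else 0) := by
    intro n
    unfold nu
    split_ifs with hn
    · refine (prod_eq_one fun l hl => ?_).symm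
      rw [if_neg, sub_zero]
      exact fun hd => absurd (hn l (mem_filter.1 hl).2 hd)
        (not_lt.2 (mem_Icc.1 (mem_filter.1 hl).1).2)
    · unfold Rough at hn
      push Not at hn
      obtain ⟨p, hp, hpn, hpz⟩ := hn
      refine (prod_eq_zero (mem_filter.2 ⟨mem_Icc.2 ⟨hp.one_le, hpz⟩, hp⟩) ?_).symm
      rw [if_pos hpn, sub_self]
  have hB : ∑ S ∈ H.powersetCard K, ∏ l ∈ S, g' l ≤ tail z K := by
    refine (rankin H g' g0 K).trans (Real.exp_le_exp.2 ?_)
    have : ∑ l ∈ H, g' l ≤ lamz z := sum_le_sum fun l hl => (g1 l hl).2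
    linarith
  have hcard := sieve_card H hz ((card_filter_le _ _).trans (by simp)) K
  have s1 : |∑ n ∈ I, nu z n * w n -
      ∑ S ∈ H.powerset.filter (fun S => #S < K), (-1) ^ #S * W S| ≤
      ∑ S ∈ H.powersetCard K, W S := by
    simp only [hW, mul_sum]
    rw [sum_comm, ← sum_sub_distrib, sum_comm]
    refine (abs_sum_le_sum_abs _ _).trans (sum_le_sum fun n _ => ?_)
    have b := bonf H (fun l => if l ∣ n then (1 : ℝ) else 0)
      (fun l _ => by split_ifs <;> norm_num) (fun l _ => by split_ifs <;> norm_num) K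
    have b2 := mul_le_mul_of_nonneg_left b (hw n)
    rw [← abs_of_nonneg (hw n), ← abs_mul, abs_of_nonneg (hw n), mul_sub, mul_sum, mul_sum,
      ← hnu, mul_comm] at b2
    simpa only [mul_left_comm (w n)] using b2
  have s2 : ∑ S ∈ H.powersetCard K, W S ≤ m * tail z K + (z : ℝ) ^ K * E := by
    calc ∑ S ∈ H.powersetCard K, W S ≤ ∑ S ∈ H.powersetCard K, (m * ∏ l ∈ S, g' l + E) := by
          refine sum_le_sum fun S hS => ?_
          have := (abs_le.1 (hterm S (mem_powersetCard.1 hS).1 (mem_powersetCard.1 hS).2.le)).2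
          linarith
      _ = m * ∑ S ∈ H.powersetCard K, ∏ l ∈ S, g' l + #(H.powersetCard K) * E := by
          rw [sum_add_distrib, mul_sum, sum_const, nsmul_eq_mul]
      _ ≤ _ := add_le_add (mul_le_mul_of_nonneg_left hB hm0)
          (mul_le_mul_of_nonneg_right (by exact_mod_cast hcard.2) hE)
  have s3 : |∑ S ∈ H.powerset.filter (fun S => #S < K), (-1) ^ #S * W S -
      m * ∑ S ∈ H.powerset.filter (fun S => #S < K), (-1) ^ #S * ∏ l ∈ S, g' l| ≤
      K * (z : ℝ) ^ K * E := by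
    rw [mul_sum, ← sum_sub_distrib]
    refine (abs_sum_le_sum_abs _ _).trans ((sum_le_sum (g := fun _ => E) fun S hS => ?_).trans ?_)
    · rw [mul_left_comm, ← mul_sub, abs_mul, abs_pow, abs_neg, abs_one, one_pow, one_mul]
      exact hterm S (mem_powerset.1 (mem_filter.1 hS).1) (mem_filter.1 hS).2.le
    · rw [sum_const, nsmul_eq_mul]
      exact mul_le_mul_of_nonneg_right (by exact_mod_cast hcard.1) hE
  have s4 := mul_le_mul_of_nonneg_left ((bonf H g' g0 (fun l hl => (g1 l hl).1) K).trans hB) hm0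
  rw [← abs_of_nonneg hm0, ← abs_mul, abs_of_nonneg hm0, mul_sub, ← hV] at s4
  have s5 : m * tail z K ≤ κ * N * g e * tail z K := by
    have : (y : ℝ) ≤ N := by exact_mod_cast hy
    have t0 : 0 ≤ tail z K := (Real.exp_pos _).le
    rw [hm]
    gcongr
  have e0 : κ * g e * VV z D g * y = m * VV z D g := by rw [hm]; ring
  rw [e0]
  rw [abs_le] at s1 s3 s4 ⊢
  constructor <;> linarith [s1.1, s1.2, s3.1, s3.2, s4.1, s4.2]

end Vale.Agent.P016
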