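import Vale.Agent.P016.Sieve
import Vale.Agent.P005.Red.Vaughan
import Vale.Agent.P005.Red.TypeI

/-! P016 TypeI: the type I sum (TASK).
PLAN.  `abel_log`: `Finset.sum_Ioc_by_parts` / `Finset.sum_range_by_parts`, or induction: with `A y = ∑_{n ≤ y} v n`,
`∑_{n ≤ N} v n log n = A N log N - ∑_{1 ≤ k < N} A k (log (k+1) - log k)`.
`typeI_abs`: `tI = dconv (muL U) log - dconv (cc U) 1`, `sum_dconv`; reindex `s ↦ n = r s` (`∑ s ∈ Icc 1 (N / r), f (r s)` is the sum
over `n ≤ N`, `r ∣ n`), `log s = log n - log r`.  If `r` is not rough both the inner sum and `nu z r` vanish.  For rough `r ≤ U^2` put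
`err r = 2 κ N g r tail + (K+1) z^K E` (`sieve_abs` for all `y ≤ N`), apply `abel_log` to `v n = 1[r ∣ n] nu w - κ g r VV`.
First part `≤ ∑_{r ≤ U} 3 L err r`, second part `≤ ∑_{e ≤ U^2} L err e` (`abs_cc_le`, `cc_eq_zero`), `g r ≤ 2 / r`,
`∑_{r ≤ N} 1/r ≤ 1 + L` (`harmonic_le_one_add_log`), `0 ≤ E` (take `y = 0`). -/

namespace Vale.Agent.P016

open Finset Filter Vale.Agent.P005

theorem abel_log (v : ℕ → ℝ) (N : ℕ) {E : ℝ} (h : ∀ y, y ≤ N → |∑ n ∈ Icc 1 y, v n| ≤ E) :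
    |∑ n ∈ Icc 1 N, v n * Real.log n| ≤ 2 * E * Real.log N := by
  have key : ∀ M, M ≤ N → |∑ n ∈ Icc 1 M, v n * Real.log n -
      (∑ n ∈ Icc 1 M, v n) * Real.log M| ≤ E * Real.log M := by
    intro M
    induction M with
    | zero => intro _; simp
    | succ M ih =>
      intro hM
      have h1 := ih (by omega)
      have h2 := h M (by omega)
      have h3 : Real.log (M : ℕ) ≤ Real.log (M + 1 : ℕ) := by
        rcases Nat.eq_zero_or_pos M with rfl | h0
        · simp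
        · exact Real.log_le_log (by exact_mod_cast h0) (by exact_mod_cast Nat.le_succ M)
      rw [sum_Icc_succ_top (by omega), sum_Icc_succ_top (by omega)]
      have e : ∑ n ∈ Icc 1 M, v n * Real.log n + v (M + 1) * Real.log (M + 1 : ℕ) -
          (∑ n ∈ Icc 1 M, v n + v (M + 1)) * Real.log (M + 1 : ℕ) =
          (∑ n ∈ Icc 1 M, v n * Real.log n - (∑ n ∈ Icc 1 M, v n) * Real.log M) -
            (∑ n ∈ Icc 1 M, v n) * (Real.log (M + 1 : ℕ) - Real.log M) := by ring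
      rw [e]
      refine (abs_sub _ _).trans ?_
      rw [abs_mul, abs_of_nonneg (sub_nonneg.2 h3)]
      nlinarith [mul_le_mul_of_nonneg_right h2 (sub_nonneg.2 h3)]
  have h1 := key N le_rfl
  have h2 := h N le_rfl
  have h3 : 0 ≤ Real.log N := Real.log_natCast_nonneg N
  have h4 := abs_add_le (∑ n ∈ Icc 1 N, v n * Real.log n - (∑ n ∈ Icc 1 N, v n) * Real.log N)
    ((∑ n ∈ Icc 1 N, v n) * Real.log N)
  rw [sub_add_cancel, abs_mul, abs_of_nonneg h3] at h4
  nlinarith [mul_le_mul_of_nonneg_right h2 h3]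

theorem typeI_reindex (G : ℕ → ℝ) (N : ℕ) {r : ℕ} (hr : 1 ≤ r) :
    ∑ s ∈ Icc 1 (N / r), G (r * s) = ∑ n ∈ Icc 1 N, if r ∣ n then G n else 0 := by
  rw [← sum_filter]
  refine sum_nbij' (fun s => r * s) (fun n => n / r) ?_ ?_ ?_ ?_ fun _ _ => rfl
  · intro s hs
    obtain ⟨h1, h2⟩ := mem_Icc.1 hs
    exact mem_filter.2 ⟨mem_Icc.2 ⟨Nat.mul_pos hr h1, by
      rw [mul_comm]; exact (Nat.le_div_iff_mul_le hr).1 h2⟩, dvd_mul_right _ _⟩
  · intro n hn
    obtain ⟨h1, h2⟩ := mem_filter.1 hn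
    obtain ⟨h3, h4⟩ := mem_Icc.1 h1
    exact mem_Icc.2 ⟨Nat.div_pos (Nat.le_of_dvd h3 h2) hr, Nat.div_le_div_right h4⟩
  · intro s _
    exact Nat.mul_div_cancel_left s hr
  · intro n hn
    exact Nat.mul_div_cancel' (mem_filter.1 hn).2

theorem typeI_cut (c F : ℕ → ℝ) {Y N : ℕ} (h : Y ≤ N) (hc : ∀ r, Y < r → c r = 0) :
    ∑ r ∈ Icc 1 N, c r * F r = ∑ r ∈ Icc 1 Y, c r * F r :=
  (sum_subset (Icc_subset_Icc_right h) fun r h1 h2 => by
    rw [hc r (by simp only [mem_Icc] at h1 h2; omega), zero_mul]).symm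

theorem typeI_abs {w g : ℕ → ℝ} {N U Q D z K : ℕ} {κ E : ℝ} (hw : ∀ n, 0 ≤ w n) (hg : MultG g)
    (hκ : 0 ≤ κ) (h : Dens w N Q D g κ E) (hz : 1 ≤ z) (hD : ∀ l, l.Prime → l ∣ D → l ≤ z)
    (hU : 1 ≤ U) (hUN : U ^ 2 ≤ N) (hQ : U ^ 2 * z ^ K ≤ Q)
    (hr : ∀ e, 1 ≤ e → e ≤ N → Rough z e → g e ≤ 2 / e) :
    |∑ n ∈ Icc 1 N, tI U n * nu z n * w n - κ * VV z D g * QQ N U z g| ≤
      16 * κ * N * Real.log N * (1 + Real.log N) * tail z K +
        4 * Real.log N * U ^ 2 * (K + 1) * (z : ℝ) ^ K * E := by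
  set L := Real.log N with hL
  have L0 : 0 ≤ L := Real.log_natCast_nonneg N
  have E0 : 0 ≤ E := (abs_nonneg _).trans (h 1 0 le_rfl
    (le_trans (Nat.mul_pos (by positivity) (by positivity)) hQ) (Nat.zero_le _))
  have t0 : 0 ≤ tail z K := (Real.exp_pos _).le
  have UU : U ≤ U ^ 2 := by nlinarith
  set err : ℕ → ℝ := fun r => 4 * κ * N * tail z K * (1 / r) + (K + 1) * (z : ℝ) ^ K * E
  have e0 : ∀ r, 0 ≤ err r := fun r => by positivity
  set v : ℕ → ℕ → ℝ := fun r n =>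
    (if r ∣ n then nu z n * w n else 0) - κ * VV z D g * (nu z r * g r)
  have row : ∀ r ∈ Icc 1 (U ^ 2), ∀ y, y ≤ N → |∑ n ∈ Icc 1 y, v r n| ≤ err r := by
    intro r hr' y hy
    obtain ⟨r1, r2⟩ := mem_Icc.1 hr'
    by_cases hro : Rough z r
    · have h1 := sieve_abs (K := K) hw hg hκ h hz hD r1 hro
        ((Nat.mul_le_mul_right _ r2).trans hQ) hy
      have h2 := hr r r1 (r2.trans hUN) hro
      have e : ∑ n ∈ Icc 1 y, v r n =
          ∑ n ∈ (Icc 1 y).filter (r ∣ ·), nu z n * w n - κ * g r * VV z D g * y := by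
        simp only [v, sum_sub_distrib, sum_filter, sum_const, Nat.card_Icc, nsmul_eq_mul,
          nu, if_pos hro, Nat.add_sub_cancel]
        ring
      rw [e]
      refine h1.trans (add_le_add ?_ le_rfl)
      calc _ = 2 * κ * N * tail z K * g r := by ring
        _ ≤ 2 * κ * N * tail z K * (2 / r) := by gcongr
        _ = _ := by ring
    · rw [sum_eq_zero fun n _ => ?_, abs_zero]
      · exact e0 r
      · simp only [v, nu, if_neg hro, zero_mul, mul_zero, sub_zero]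
        split_ifs with h1 h2
        · exact absurd (fun p hp hd => h2 p hp (hd.trans h1)) hro
        · exact zero_mul _
        · rfl
  have lg : ∀ r ∈ Icc 1 (U ^ 2), 0 ≤ Real.log r ∧ Real.log r ≤ L := fun r hr' =>
    ⟨Real.log_natCast_nonneg r, Real.log_le_log (by exact_mod_cast (mem_Icc.1 hr').1)
      (by exact_mod_cast (mem_Icc.1 hr').2.trans hUN)⟩
  have s1 : ∑ n ∈ Icc 1 N, dconv (muL U) (fun l => Real.log l) n * (nu z n * w n) =
      ∑ r ∈ Icc 1 U, muL U r * ∑ n ∈ Icc 1 N,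
        (if r ∣ n then nu z n * w n else 0) * (Real.log n - Real.log r) := by
    rw [sum_dconv, ← typeI_cut (muL U) _ (UU.trans hUN) fun r hr' => if_neg (not_le.2 hr')]
    refine sum_congr rfl fun r hr' => ?_
    have r1 := (mem_Icc.1 hr').1
    simp only [ite_mul, zero_mul]
    rw [← typeI_reindex (fun n => nu z n * w n * (Real.log n - Real.log r)) N r1, mul_sum]
    refine sum_congr rfl fun s hs => ?_
    have s1 := (mem_Icc.1 hs).1
    rw [Nat.cast_mul, Real.log_mul (by positivity) (by positivity)]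
    ring
  have s2 : ∑ n ∈ Icc 1 N, dconv (cc U) (fun _ => 1) n * (nu z n * w n) =
      ∑ r ∈ Icc 1 (U ^ 2), cc U r * ∑ n ∈ Icc 1 N, (if r ∣ n then nu z n * w n else 0) := by
    rw [sum_dconv, ← typeI_cut _ _ hUN fun r hr' => cc_eq_zero hr']
    refine sum_congr rfl fun r hr' => ?_
    rw [← typeI_reindex (fun n => nu z n * w n) N (mem_Icc.1 hr').1, mul_sum]
    exact sum_congr rfl fun s _ => by ring
  have e : ∑ n ∈ Icc 1 N, tI U n * nu z n * w n - κ * VV z D g * QQ N U z g =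
      ∑ r ∈ Icc 1 U, muL U r * (∑ n ∈ Icc 1 N, v r n * Real.log n -
        (∑ n ∈ Icc 1 N, v r n) * Real.log r) -
      ∑ r ∈ Icc 1 (U ^ 2), cc U r * ∑ n ∈ Icc 1 N, v r n := by
    have a1 : ∑ n ∈ Icc 1 N, tI U n * nu z n * w n =
        ∑ n ∈ Icc 1 N, dconv (muL U) (fun l => Real.log l) n * (nu z n * w n) -
          ∑ n ∈ Icc 1 N, dconv (cc U) (fun _ => 1) n * (nu z n * w n) := by
      rw [← sum_sub_distrib]
      exact sum_congr rfl fun n _ => by unfold tI; ring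
    rw [a1, s1, s2, QQ, mul_sub, mul_sum, mul_sum, mul_sum, sub_sub_sub_comm, ← sum_sub_distrib,
      ← sum_sub_distrib]
    congr 1
    · refine sum_congr rfl fun r _ => ?_
      simp only [v, sub_mul, mul_sub, sum_sub_distrib, ← mul_sum, ← sum_mul, sum_const,
        Nat.card_Icc, nsmul_eq_mul, Nat.add_sub_cancel]
      ring
    · refine sum_congr rfl fun r _ => ?_
      simp only [v, sum_sub_distrib, sum_const, Nat.card_Icc, nsmul_eq_mul, Nat.add_sub_cancel]
      ring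
  have b1 : |∑ r ∈ Icc 1 U, muL U r * (∑ n ∈ Icc 1 N, v r n * Real.log n -
      (∑ n ∈ Icc 1 N, v r n) * Real.log r)| ≤ ∑ r ∈ Icc 1 (U ^ 2), 3 * L * err r := by
    refine (abs_sum_le_sum_abs _ _).trans ((sum_le_sum fun r hr' => ?_).trans
      (sum_le_sum_of_subset_of_nonneg (Icc_subset_Icc_right UU) fun r _ _ => by
        have := e0 r; positivity))
    have hr2 := Icc_subset_Icc_right UU hr'
    have m1 : |muL U r| ≤ 1 := by
      unfold muL
      split_ifs
      · exact_mod_cast ArithmeticFunction.abs_moebius_le_one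
      · simp
    rw [abs_mul]
    refine (mul_le_of_le_one_left (abs_nonneg _) m1).trans ((abs_sub _ _).trans ?_)
    have q1 := abel_log (v r) N (row r hr2)
    rw [abs_mul, abs_of_nonneg (lg r hr2).1]
    have q2 := mul_le_mul (row r hr2 N le_rfl) (lg r hr2).2 (lg r hr2).1 (e0 r)
    linarith
  have b2 : |∑ r ∈ Icc 1 (U ^ 2), cc U r * ∑ n ∈ Icc 1 N, v r n| ≤
      ∑ r ∈ Icc 1 (U ^ 2), L * err r := by
    refine (abs_sum_le_sum_abs _ _).trans (sum_le_sum fun r hr' => ?_)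
    rw [abs_mul]
    exact mul_le_mul ((abs_cc_le U r).trans (lg r hr').2) (row r hr' N le_rfl) (abs_nonneg _) L0
  have b3 : ∑ r ∈ Icc 1 (U ^ 2), err r ≤
      4 * κ * N * tail z K * (1 + L) + U ^ 2 * ((K + 1) * (z : ℝ) ^ K * E) := by
    simp only [err]
    rw [sum_add_distrib, ← mul_sum, sum_const, Nat.card_Icc, nsmul_eq_mul, Nat.add_sub_cancel,
      Nat.cast_pow]
    refine add_le_add (mul_le_mul_of_nonneg_left ?_ (by positivity)) le_rfl
    exact (sum_le_sum_of_subset_of_nonneg (Icc_subset_Icc_right hUN) fun _ _ _ => by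
      positivity).trans (typei_harm N)
  rw [e]
  refine (abs_sub _ _).trans ((add_le_add b1 b2).trans ?_)
  rw [← mul_sum, ← mul_sum]
  nlinarith [mul_le_mul_of_nonneg_left b3 L0]

end Vale.Agent.P016
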